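import Vale.Agent.P195.Model.Lev
import Vale.Agent.P195.Corner

/-!
The regular module as a sum of columns, and the augmentation onto the simple module.
-/

namespace Vale.Agent.P195.Model

open Matrix TrivSqZeroExt CategoryTheory

theorem sum_eV : ∑ v, eV v = 1 := by
  refine ext_blk (fun u w => ?_) fun u w => ?_
  · rw [val_sum, TrivSqZeroExt.fst_sum, map_sum]
    show ∑ v, blk u w (proj fun z => z == v) = blk u w (1 : Mat)
    rw [Finset.sum_eq_single u]
    · rw [← mul_one (proj _), blk_proj_mul, if_pos (by simp)]
    · intro v _ hv
      rw [← mul_one (proj _), blk_proj_mul, if_neg (by simpa using hv.symm)]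
    · intro hh; exact absurd (Finset.mem_univ _) hh
  · rw [val_sum, TrivSqZeroExt.snd_sum, map_sum]
    show ∑ v, blk u w (0 : Mat) = blk u w (snd (1 : DualNumber Mat))
    rw [snd_one, map_zero, Finset.sum_const_zero]

/-- A column as an object. -/
noncomputable abbrev colObj (v : Fin 8) : ModuleCat.{0} Gamma := ModuleCat.of Gamma (col v)

/-- The projection of the regular module onto a column. -/
noncomputable def regP (v : Fin 8) : ModuleCat.of Gamma Gamma ⟶ colObj v :=
  ModuleCat.ofHom (toCol v)

/-- The inclusion of a column into the regular module. -/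
noncomputable def regQ (v : Fin 8) : colObj v ⟶ ModuleCat.of Gamma Gamma :=
  ModuleCat.ofHom (col v).subtype

theorem reg_sum : ∑ v, regP v ≫ regQ v = 𝟙 (ModuleCat.of Gamma Gamma) := by
  refine ModuleCat.hom_ext (LinearMap.ext fun x => ?_)
  rw [ModuleCat.hom_sum, LinearMap.sum_apply]
  show ∑ v, x * eV v = x
  rw [← Finset.mul_sum, sum_eV, mul_one]

/-- The simple module at the special vertex. -/
noncomputable abbrev SimpleOm : Type := Cor.Point (k := ℚ) (G := Gamma) chi

/-- The single summand at the special vertex. -/
abbrev omIdx : Unit → Fin 8 := fun _ => om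

/-- The augmentation of the special column onto the simple module. -/
noncomputable def omAug : Cols omIdx →ₗ[Gamma] SimpleOm where
  toFun x := chi (x () : Gamma)
  map_add' x y := map_add chi _ _
  map_smul' r x := map_mul chi r _

/-- The augmentation read on the lower level. -/
noncomputable def omAugK : (∀ (i : Unit) u, H0 u (omIdx i)) →+ SimpleOm where
  toFun T := scalarOf ((T () om).1 (0 : Fin 1) (0 : Fin 1))
  map_zero' := map_zero scalarOf
  map_add' _ _ := map_add scalarOf _ _

theorem omAug_eq (x : Cols omIdx) : omAug x = omAugK (lev omIdx x).1 := rfl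

theorem chi_eV_om : chi (eV om) = 1 := by
  rw [← one_sub_e, map_sub, map_one, chi_e, sub_zero]

theorem omAug_surjective : Function.Surjective omAug := fun c => by
  let a : ℚ := c
  refine ⟨fun _ => algebraMap ℚ Gamma a • gen om, ?_⟩
  show chi (algebraMap ℚ Gamma a * eV om) = a
  rw [map_mul, AlgHom.commutes, chi_eV_om, mul_one]
  rfl

end Vale.Agent.P195.Model
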