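import Vale.Agent.P195.Model.Col

/-!
Finite sums of columns, the maps between them given by matrices of elements, and the two levels
of these sums and of the maps out of them into a column.
-/

namespace Vale.Agent.P195.Model

open Matrix TrivSqZeroExt

/-- The underlying matrix of dual numbers as an additive map. -/
noncomputable def valHom : Gamma →+ DualNumber Mat where
  toFun := Gamma.val
  map_zero' := rfl
  map_add' _ _ := rfl

theorem val_sum {ι : Type*} (s : Finset ι) (f : ι → Gamma) :
    (∑ i ∈ s, f i).val = ∑ i ∈ s, (f i).val := map_sum valHom f s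

/-- A block of the lower level. -/
noncomputable def blk0 (u v : Fin 8) : Gamma →ₗ[ℚ] H0 u v where
  toFun x := ⟨blk u v (fst x.val), (x.mem u v).1⟩
  map_add' _ _ := rfl
  map_smul' _ _ := rfl

/-- A block of the upper level. -/
noncomputable def blk1 (u v : Fin 8) : Gamma →ₗ[ℚ] H1 u v where
  toFun x := ⟨blk u v (snd x.val), (x.mem u v).2⟩
  map_add' _ _ := rfl
  map_smul' _ _ := rfl

theorem blk0_val (u v : Fin 8) (x : Gamma) : (blk0 u v x).1 = blk u v (fst x.val) := rfl

theorem blk1_val (u v : Fin 8) (x : Gamma) : (blk1 u v x).1 = blk u v (snd x.val) := rfl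

theorem col_mul_blk {w : Fin 8} {x : Gamma} (hx : x ∈ col w) (y : Gamma) (u v : Fin 8) :
    blk u v (fst (x * y).val) = blk u w (fst x.val) * blk w v (fst y.val) ∧
    blk u v (snd (x * y).val) =
      blk u w (fst x.val) * blk w v (snd y.val) + blk u w (snd x.val) * blk w v (fst y.val) := by
  have h := mem_col_iff_blk.1 hx
  constructor
  · rw [Gamma.val_mul, fst_mul, blk_mul, Finset.sum_eq_single w]
    · intro z _ hz
      rw [(h u z hz).1, Matrix.zero_mul]
    · intro hh; exact absurd (Finset.mem_univ _) hh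
  · rw [Gamma.val_mul, DualNumber.snd_mul, map_add, blk_mul, blk_mul, Finset.sum_eq_single w,
      Finset.sum_eq_single w]
    · intro z _ hz
      rw [(h u z hz).2, Matrix.zero_mul]
    · intro hh; exact absurd (Finset.mem_univ _) hh
    · intro z _ hz
      rw [(h u z hz).1, Matrix.zero_mul]
    · intro hh; exact absurd (Finset.mem_univ _) hh

theorem blk_toCol (v : Fin 8) (x : Gamma) (u : Fin 8) :
    blk0 u v (toCol v x : Gamma) = blk0 u v x ∧ blk1 u v (toCol v x : Gamma) = blk1 u v x := by
  refine ⟨Subtype.ext ?_, Subtype.ext ?_⟩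
  · show blk u v (fst (x * eV v).val) = _
    rw [blk_fst_mul_eV, if_pos rfl]
    rfl
  · show blk u v (snd (x * eV v).val) = _
    rw [blk_snd_mul_eV, if_pos rfl]
    rfl

theorem col_ext {v : Fin 8} {x y : col v} (h0 : ∀ u, blk0 u v (x : Gamma) = blk0 u v (y : Gamma))
    (h1 : ∀ u, blk1 u v (x : Gamma) = blk1 u v (y : Gamma)) : x = y := by
  refine Subtype.ext (ext_blk (fun u w => ?_) fun u w => ?_)
  · by_cases hw : w = v
    · subst hw; exact congrArg Subtype.val (h0 u)
    · rw [((mem_col_iff_blk.1 x.2) u w hw).1, ((mem_col_iff_blk.1 y.2) u w hw).1]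
  · by_cases hw : w = v
    · subst hw; exact congrArg Subtype.val (h1 u)
    · rw [((mem_col_iff_blk.1 x.2) u w hw).2, ((mem_col_iff_blk.1 y.2) u w hw).2]

/-- The element of a column with prescribed blocks. -/
noncomputable def colOf (v : Fin 8) (T : ∀ u, H0 u v) (T' : ∀ u, H1 u v) : col v :=
  ⟨∑ u, single u v (T u) (T' u), Submodule.sum_mem _ fun u _ => single_mem_col u v _ _⟩

theorem blk0_single (u v : Fin 8) (T : H0 u v) (T' : H1 u v) :
    blk0 u v (single u v T T') = T := by
  refine Subtype.ext ?_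
  rw [blk0_val, fst_single, blk_blkEmb_self]

theorem blk1_single (u v : Fin 8) (T : H0 u v) (T' : H1 u v) :
    blk1 u v (single u v T T') = T' := by
  refine Subtype.ext ?_
  rw [blk1_val, snd_single, blk_blkEmb_self]

theorem blk0_single_ne {u u' : Fin 8} (h : u' ≠ u) (v v' : Fin 8) (T : H0 u v) (T' : H1 u v) :
    blk0 u' v' (single u v T T') = 0 := by
  refine Subtype.ext ?_
  rw [blk0_val, fst_single, blk_blkEmb_ne (Or.inl h)]
  rfl

theorem blk1_single_ne {u u' : Fin 8} (h : u' ≠ u) (v v' : Fin 8) (T : H0 u v) (T' : H1 u v) :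
    blk1 u' v' (single u v T T') = 0 := by
  refine Subtype.ext ?_
  rw [blk1_val, snd_single, blk_blkEmb_ne (Or.inl h)]
  rfl

theorem blk0_colOf (v : Fin 8) (T : ∀ u, H0 u v) (T' : ∀ u, H1 u v) (u : Fin 8) :
    blk0 u v (colOf v T T' : Gamma) = T u := by
  show blk0 u v (∑ w, single w v (T w) (T' w)) = T u
  rw [map_sum, Finset.sum_eq_single u]
  · exact blk0_single _ _ _ _
  · intro w _ hw; exact blk0_single_ne (Ne.symm hw) _ _ _ _
  · intro hh; exact absurd (Finset.mem_univ _) hh

theorem blk1_colOf (v : Fin 8) (T : ∀ u, H0 u v) (T' : ∀ u, H1 u v) (u : Fin 8) :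
    blk1 u v (colOf v T T' : Gamma) = T' u := by
  show blk1 u v (∑ w, single w v (T w) (T' w)) = T' u
  rw [map_sum, Finset.sum_eq_single u]
  · exact blk1_single _ _ _ _
  · intro w _ hw; exact blk1_single_ne (Ne.symm hw) _ _ _ _
  · intro hh; exact absurd (Finset.mem_univ _) hh

variable {ι κ : Type} (g : ι → Fin 8) (h : κ → Fin 8)

/-- A sum of columns. -/
abbrev Cols : Type := ∀ i, col (g i)

theorem cols_projective [Finite ι] : Module.Projective Gamma (Cols g) := by
  classical
  have := Fintype.ofFinite ι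
  have := fun i => col_projective (g i)
  exact Module.Projective.of_equiv DFinsupp.linearEquivFunOnFintype

/-- The two levels of a sum of columns. -/
noncomputable def lev : Cols g ≃+ (∀ i u, H0 u (g i)) × (∀ i u, H1 u (g i)) where
  toFun x := (fun i u => blk0 u (g i) (x i : Gamma), fun i u => blk1 u (g i) (x i : Gamma))
  invFun p i := colOf (g i) (p.1 i) (p.2 i)
  left_inv x := _root_.funext fun i =>
    col_ext (fun u => blk0_colOf _ _ _ u) (fun u => blk1_colOf _ _ _ u)
  right_inv p := Prod.ext (_root_.funext fun i => _root_.funext fun u => blk0_colOf _ _ _ u)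
    (_root_.funext fun i => _root_.funext fun u => blk1_colOf _ _ _ u)
  map_add' x y := Prod.ext (_root_.funext fun i => _root_.funext fun u => map_add (blk0 u (g i)) _ _)
    (_root_.funext fun i => _root_.funext fun u => map_add (blk1 u (g i)) _ _)

theorem lev_fst (x : Cols g) (i : ι) (u : Fin 8) :
    (lev g x).1 i u = blk0 u (g i) (x i : Gamma) := rfl

theorem lev_snd (x : Cols g) (i : ι) (u : Fin 8) :
    (lev g x).2 i u = blk1 u (g i) (x i : Gamma) := rfl

variable [Fintype ι]

/-- The map between sums of columns given by a matrix of elements. -/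
noncomputable def rmul (a : ι → κ → Gamma) : Cols g →ₗ[Gamma] Cols h where
  toFun x k := toCol (h k) (∑ i, (x i : Gamma) * a i k)
  map_add' x y := _root_.funext fun k => by
    simp only [Pi.add_apply, Submodule.coe_add, add_mul, Finset.sum_add_distrib, map_add]
  map_smul' r x := _root_.funext fun k => by
    simp only [Pi.smul_apply, Submodule.coe_smul, smul_eq_mul, mul_assoc, ← Finset.mul_sum,
      RingHom.id_apply]
    rw [← map_smul, smul_eq_mul]

theorem blk_rmul (a : ι → κ → Gamma) (x : Cols g) (k : κ) (u : Fin 8) :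
    ((lev h (rmul g h a x)).1 k u).1 =
        ∑ i, ((lev g x).1 i u).1 * blk (g i) (h k) (fst (a i k).val) ∧
      ((lev h (rmul g h a x)).2 k u).1 =
        ∑ i, (((lev g x).1 i u).1 * blk (g i) (h k) (snd (a i k).val) +
          ((lev g x).2 i u).1 * blk (g i) (h k) (fst (a i k).val)) := by
  have e := blk_toCol (h k) (∑ i, (x i : Gamma) * a i k) u
  constructor
  · rw [lev_fst]
    show (blk0 u (h k) (toCol (h k) (∑ i, (x i : Gamma) * a i k) : Gamma)).1 = _
    rw [e.1, map_sum, AddSubmonoidClass.coe_finsetSum]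
    exact Finset.sum_congr rfl fun i _ => (col_mul_blk (x i).2 _ _ _).1
  · rw [lev_snd]
    show (blk1 u (h k) (toCol (h k) (∑ i, (x i : Gamma) * a i k) : Gamma)).1 = _
    rw [e.2, map_sum, AddSubmonoidClass.coe_finsetSum]
    exact Finset.sum_congr rfl fun i _ => (col_mul_blk (x i).2 _ _ _).2

variable [DecidableEq ι] [Fintype κ] [DecidableEq κ]

/-- The generator of one summand. -/
noncomputable def genAt (i : ι) : Cols g := Pi.single i (gen (g i))

omit [Fintype ι] in
theorem genAt_self (i : ι) : genAt g i i = gen (g i) := Pi.single_eq_same _ _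

theorem map_eq_sum {X : Type*} [AddCommGroup X] [Module Gamma X]
    (f : Cols g →ₗ[Gamma] X) (x : Cols g) : f x = ∑ i, (x i : Gamma) • f (genAt g i) := by
  have hx : x = ∑ i, (x i : Gamma) • genAt g i := by
    funext j
    rw [Finset.sum_apply, Finset.sum_eq_single j]
    · rw [Pi.smul_apply, genAt_self, smul_gen]
    · intro b _ hb
      rw [Pi.smul_apply, genAt, Pi.single_eq_of_ne (Ne.symm hb), smul_zero]
    · intro hh; exact absurd (Finset.mem_univ _) hh
  conv_lhs => rw [hx, map_sum]
  exact Finset.sum_congr rfl fun i _ => map_smul f _ _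

variable (v : Fin 8)

/-- The two levels of maps from a sum of columns into a column. -/
noncomputable def homLev :
    (Cols g →ₗ[Gamma] col v) ≃+ (∀ i, H0 (g i) v) × (∀ i, H1 (g i) v) where
  toFun f := (fun i => blk0 (g i) v (f (genAt g i) : Gamma),
    fun i => blk1 (g i) v (f (genAt g i) : Gamma))
  invFun p := ∑ i, (colLift (g i)
    (⟨single (g i) v (p.1 i) (p.2 i), single_mem_col _ _ _ _⟩ : col v)).comp (LinearMap.proj i)
  left_inv f := by
    refine LinearMap.ext fun x => ?_
    rw [LinearMap.sum_apply, map_eq_sum g f]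
    refine Finset.sum_congr rfl fun i _ => ?_
    show (x i : Gamma) • (⟨single (g i) v _ _, _⟩ : col v) = _
    refine Subtype.ext ?_
    show (x i : Gamma) * single (g i) v _ _ = (x i : Gamma) * (f (genAt g i) : Gamma)
    refine ext_blk (fun u w => ?_) fun u w => ?_
    · rw [(col_mul_blk (x i).2 _ u w).1, (col_mul_blk (x i).2 _ u w).1]
      by_cases hw : w = v
      · subst hw; rw [fst_single, blk_blkEmb_self]; rfl
      · rw [fst_single, blk_blkEmb_ne (Or.inr hw), ((mem_col_iff_blk.1 (f _).2) _ w hw).1]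
    · rw [(col_mul_blk (x i).2 _ u w).2, (col_mul_blk (x i).2 _ u w).2]
      by_cases hw : w = v
      · subst hw; rw [fst_single, snd_single, blk_blkEmb_self, blk_blkEmb_self]; rfl
      · rw [fst_single, snd_single, blk_blkEmb_ne (Or.inr hw), blk_blkEmb_ne (Or.inr hw),
          ((mem_col_iff_blk.1 (f _).2) _ w hw).1, ((mem_col_iff_blk.1 (f _).2) _ w hw).2]
  right_inv p := by
    have key : ∀ i, ((∑ k, (colLift (g k)
        (⟨single (g k) v (p.1 k) (p.2 k), single_mem_col _ _ _ _⟩ : col v)).comp
          (LinearMap.proj k)) (genAt g i) : Gamma) = eV (g i) * single (g i) v (p.1 i) (p.2 i) := by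
      intro i
      rw [LinearMap.sum_apply, Finset.sum_eq_single i]
      · show ((genAt g i i : col (g i)) : Gamma) * single (g i) v (p.1 i) (p.2 i) = _
        rw [genAt_self]
        rfl
      · intro b _ hb
        refine Subtype.ext ?_
        show ((genAt g i b : col (g b)) : Gamma) * single (g b) v (p.1 b) (p.2 b) = 0
        rw [genAt, Pi.single_eq_of_ne hb]
        exact zero_mul _
      · intro hh; exact absurd (Finset.mem_univ _) hh
    refine Prod.ext (_root_.funext fun i => Subtype.ext ?_)
      (_root_.funext fun i => Subtype.ext ?_)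
    · rw [blk0_val, key, blk_fst_eV_mul, if_pos rfl, fst_single, blk_blkEmb_self]
    · rw [blk1_val, key, blk_snd_eV_mul, if_pos rfl, snd_single, blk_blkEmb_self]
  map_add' f₁ f₂ := Prod.ext (_root_.funext fun i => map_add (blk0 (g i) v) _ _)
    (_root_.funext fun i => map_add (blk1 (g i) v) _ _)

theorem homLev_fst (f : Cols g →ₗ[Gamma] col v) (i : ι) :
    (homLev g v f).1 i = blk0 (g i) v (f (genAt g i) : Gamma) := rfl

theorem homLev_snd (f : Cols g →ₗ[Gamma] col v) (i : ι) :
    (homLev g v f).2 i = blk1 (g i) v (f (genAt g i) : Gamma) := rfl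

theorem homLev_rmul (a : ι → κ → Gamma) (f : Cols h →ₗ[Gamma] col v) (i : ι) :
    ((homLev g v (f ∘ₗ rmul g h a)).1 i).1 =
        ∑ k, blk (g i) (h k) (fst (a i k).val) * ((homLev h v f).1 k).1 ∧
      ((homLev g v (f ∘ₗ rmul g h a)).2 i).1 =
        ∑ k, (blk (g i) (h k) (fst (a i k).val) * ((homLev h v f).2 k).1 +
          blk (g i) (h k) (snd (a i k).val) * ((homLev h v f).1 k).1) := by
  have hc : ∀ k, (rmul g h a (genAt g i) k : Gamma) = eV (g i) * a i k * eV (h k) := by
    intro k
    show (∑ j, ((genAt g i j : col (g j)) : Gamma) * a j k) * eV (h k) = _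
    rw [Finset.sum_eq_single i]
    · rw [genAt_self]; rfl
    · intro b _ hb
      rw [genAt, Pi.single_eq_of_ne hb]
      exact zero_mul _
    · intro hh; exact absurd (Finset.mem_univ _) hh
  have b0 : ∀ k, blk (g i) (h k) (fst (eV (g i) * a i k * eV (h k)).val) =
      blk (g i) (h k) (fst (a i k).val) := fun k => by
    rw [blk_fst_mul_eV, if_pos rfl, blk_fst_eV_mul, if_pos rfl]
  have b1 : ∀ k, blk (g i) (h k) (snd (eV (g i) * a i k * eV (h k)).val) =
      blk (g i) (h k) (snd (a i k).val) := fun k => by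
    rw [blk_snd_mul_eV, if_pos rfl, blk_snd_eV_mul, if_pos rfl]
  have hm : ∀ k, eV (g i) * a i k * eV (h k) ∈ col (h k) := fun k => by
    rw [mem_col, mul_assoc, eV_mul_self]
  have he : ((f ∘ₗ rmul g h a) (genAt g i) : Gamma) =
      ∑ k, eV (g i) * a i k * eV (h k) * (f (genAt h k) : Gamma) := by
    show (f (rmul g h a (genAt g i)) : Gamma) = _
    rw [map_eq_sum h f, AddSubmonoidClass.coe_finsetSum]
    exact Finset.sum_congr rfl fun k _ => congrArg (· * (f (genAt h k) : Gamma)) (hc k)
  constructor
  · rw [homLev_fst, he, map_sum, AddSubmonoidClass.coe_finsetSum]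
    refine Finset.sum_congr rfl fun k _ => ?_
    show blk (g i) v (fst (eV (g i) * a i k * eV (h k) * (f (genAt h k) : Gamma)).val) = _
    rw [(col_mul_blk (hm k) _ _ _).1, b0]
    rfl
  · rw [homLev_snd, he, map_sum, AddSubmonoidClass.coe_finsetSum]
    refine Finset.sum_congr rfl fun k _ => ?_
    show blk (g i) v (snd (eV (g i) * a i k * eV (h k) * (f (genAt h k) : Gamma)).val) = _
    rw [(col_mul_blk (hm k) _ _ _).2, b0, b1]
    rfl

end Vale.Agent.P195.Model
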