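import Vale.Agent.P195.Model.Gamma

/-!
The indecomposable projective columns, maps out of them, and elements concentrated in one block.
-/

namespace Vale.Agent.P195.Model

open Matrix TrivSqZeroExt

universe w

/-- The projective left ideal of a vertex. -/
noncomputable def col (v : Fin 8) : Submodule Gamma Gamma where
  carrier := {x | x * eV v = x}
  zero_mem' := zero_mul _
  add_mem' {a b} ha hb := by
    show (a + b) * eV v = a + b
    rw [add_mul, ha, hb]
  smul_mem' g a ha := by
    show g * a * eV v = g * a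
    rw [mul_assoc, ha]

theorem mem_col {v : Fin 8} {x : Gamma} : x ∈ col v ↔ x * eV v = x := Iff.rfl

theorem eV_mul_self (v : Fin 8) : eV v * eV v = eV v := by
  rw [eV, idem_mul_idem]
  simp

theorem eV_mul_ne {u v : Fin 8} (h : u ≠ v) : eV u * eV v = 0 := by
  rw [eV, eV, idem_mul_idem]
  refine Gamma.ext ?_
  show inl (proj fun w => w == u && w == v) = (0 : DualNumber Mat)
  have hs : (fun w : Fin 8 => w == u && w == v) = fun _ => false := by
    refine funext fun w => ?_
    simp only [Bool.and_eq_false_imp, beq_iff_eq]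
    intro hw
    simpa [hw] using h
  rw [hs, ← inl_zero]
  congr 1
  simp [proj]

theorem eV_mem_col (v : Fin 8) : eV v ∈ col v := eV_mul_self v

/-- The generator of a column. -/
noncomputable def gen (v : Fin 8) : col v := ⟨eV v, eV_mem_col v⟩

theorem smul_gen {v : Fin 8} (x : col v) : (x : Gamma) • gen v = x :=
  Subtype.ext x.2

/-- Right multiplication by the idempotent of a vertex retracts the algebra onto the column. -/
noncomputable def toCol (v : Fin 8) : Gamma →ₗ[Gamma] col v where
  toFun x := ⟨x * eV v, show x * eV v * eV v = x * eV v by rw [mul_assoc, eV_mul_self]⟩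
  map_add' _ _ := Subtype.ext (add_mul _ _ _)
  map_smul' g x := Subtype.ext (mul_assoc g x _)

theorem col_projective (v : Fin 8) : Module.Projective Gamma (col v) :=
  Module.Projective.of_split (col v).subtype (toCol v)
    (LinearMap.ext fun x => Subtype.ext x.2)

variable {X : Type w} [AddCommGroup X] [Module Gamma X]

theorem map_gen_fixed {v : Fin 8} (f : col v →ₗ[Gamma] X) : eV v • f (gen v) = f (gen v) := by
  rw [← map_smul]
  exact congrArg f (smul_gen (gen v))

theorem map_eq_smul_gen {v : Fin 8} (f : col v →ₗ[Gamma] X) (x : col v) :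
    f x = (x : Gamma) • f (gen v) := by
  rw [← map_smul, smul_gen]

/-- The map out of a column determined by an element of a module. -/
noncomputable def colLift (v : Fin 8) (m : X) : col v →ₗ[Gamma] X where
  toFun x := (x : Gamma) • m
  map_add' a b := add_smul (a : Gamma) (b : Gamma) m
  map_smul' g a := mul_smul g (a : Gamma) m

theorem colLift_apply (v : Fin 8) (m : X) (x : col v) : colLift v m x = (x : Gamma) • m := rfl

theorem colLift_gen {v : Fin 8} {m : X} (hm : eV v • m = m) : colLift v m (gen v) = m := hm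

theorem colLift_map_gen {v : Fin 8} (f : col v →ₗ[Gamma] X) : colLift v (f (gen v)) = f :=
  LinearMap.ext fun x => (map_eq_smul_gen f x).symm

theorem col_hom_ext {v : Fin 8} {f g : col v →ₗ[Gamma] X} (h : f (gen v) = g (gen v)) : f = g :=
  LinearMap.ext fun x => by rw [map_eq_smul_gen f, map_eq_smul_gen g, h]

theorem blk_fst_mul_eV (x : Gamma) (u v w : Fin 8) :
    blk u w (fst (x * eV v).val) = if w = v then blk u w (fst x.val) else 0 := by
  rw [eV, fst_mul_idem, blk_mul_proj]
  simp

theorem blk_snd_mul_eV (x : Gamma) (u v w : Fin 8) :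
    blk u w (snd (x * eV v).val) = if w = v then blk u w (snd x.val) else 0 := by
  rw [eV, snd_mul_idem, blk_mul_proj]
  simp

theorem blk_fst_eV_mul (x : Gamma) (u v w : Fin 8) :
    blk u w (fst (eV v * x).val) = if u = v then blk u w (fst x.val) else 0 := by
  rw [eV, fst_idem_mul, blk_proj_mul]
  simp

theorem blk_snd_eV_mul (x : Gamma) (u v w : Fin 8) :
    blk u w (snd (eV v * x).val) = if u = v then blk u w (snd x.val) else 0 := by
  rw [eV, snd_idem_mul, blk_proj_mul]
  simp

theorem mem_col_iff_blk {v : Fin 8} {x : Gamma} :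
    x ∈ col v ↔ ∀ u w, w ≠ v → blk u w (fst x.val) = 0 ∧ blk u w (snd x.val) = 0 := by
  constructor
  · intro h u w hw
    have h' : x * eV v = x := h
    constructor
    · rw [← h', blk_fst_mul_eV, if_neg hw]
    · rw [← h', blk_snd_mul_eV, if_neg hw]
  · intro h
    refine ext_blk (fun u w => ?_) fun u w => ?_
    · rw [blk_fst_mul_eV]
      split_ifs with hw
      · rfl
      · rw [(h u w hw).1]
    · rw [blk_snd_mul_eV]
      split_ifs with hw
      · rfl
      · rw [(h u w hw).2]

theorem blkEmb_blk (u v u' v' : Fin 8) (T : Matrix (Fin (rk u)) (Fin (rk v)) D)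
    (S : ∀ a b : Fin 8, Submodule ℚ (Matrix (Fin (rk a)) (Fin (rk b)) D)) (h : T ∈ S u v) :
    blk u' v' (blkEmb u v T) ∈ S u' v' := by
  by_cases hne : u' ≠ u ∨ v' ≠ v
  · rw [blk_blkEmb_ne hne]
    exact zero_mem _
  · push Not at hne
    obtain ⟨rfl, rfl⟩ := hne
    rw [blk_blkEmb_self]
    exact h

/-- The element of the algebra with one nonzero block. -/
noncomputable def single (u v : Fin 8) (T : H0 u v) (T' : H1 u v) : Gamma :=
  Gamma.mk (inl (blkEmb u v T.1) + inr (blkEmb u v T'.1)) fun u' v' => by
    rw [fst_add, fst_inl, fst_inr, add_zero, snd_add, snd_inl, snd_inr, zero_add]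
    exact ⟨blkEmb_blk _ _ _ _ _ H0 T.2, blkEmb_blk _ _ _ _ _ H1 T'.2⟩

theorem fst_single (u v : Fin 8) (T : H0 u v) (T' : H1 u v) :
    fst (single u v T T').val = blkEmb u v T.1 := by
  show fst (inl (blkEmb u v T.1) + inr (blkEmb u v T'.1)) = _
  rw [fst_add, fst_inl, fst_inr, add_zero]

theorem snd_single (u v : Fin 8) (T : H0 u v) (T' : H1 u v) :
    snd (single u v T T').val = blkEmb u v T'.1 := by
  show snd (inl (blkEmb u v T.1) + inr (blkEmb u v T'.1)) = _
  rw [snd_add, snd_inl, snd_inr, zero_add]

theorem single_mem_col (u v : Fin 8) (T : H0 u v) (T' : H1 u v) : single u v T T' ∈ col v := by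
  rw [mem_col_iff_blk]
  intro u' w hw
  rw [fst_single, snd_single, blk_blkEmb_ne (Or.inr hw), blk_blkEmb_ne (Or.inr hw)]
  exact ⟨rfl, rfl⟩

theorem blkEmb_mul_blk (u v : Fin 8) (T : Matrix (Fin (rk u)) (Fin (rk v)) D) (M : Mat)
    (u' v' : Fin 8) : blk u' v' (blkEmb u v T * M) = blk u' v (blkEmb u v T) * blk v v' M := by
  rw [blk_mul, Finset.sum_eq_single v]
  · intro w _ hw
    rw [blk_blkEmb_ne (Or.inr hw), Matrix.zero_mul]
  · intro h
    exact absurd (Finset.mem_univ _) h

theorem mul_blkEmb_blk (u v : Fin 8) (T : Matrix (Fin (rk u)) (Fin (rk v)) D) (M : Mat)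
    (u' v' : Fin 8) : blk u' v' (M * blkEmb u v T) = blk u' u M * blk u v' (blkEmb u v T) := by
  rw [blk_mul, Finset.sum_eq_single u]
  · intro w _ hw
    rw [blk_blkEmb_ne (Or.inl hw), Matrix.mul_zero]
  · intro h
    exact absurd (Finset.mem_univ _) h

theorem blk_fst_mul_single (x : Gamma) (u v : Fin 8) (T : H0 u v) (T' : H1 u v) (u' : Fin 8) :
    blk u' v (fst (x * single u v T T').val) = blk u' u (fst x.val) * T.1 := by
  rw [Gamma.val_mul, fst_mul, fst_single, mul_blkEmb_blk, blk_blkEmb_self]

theorem blk_snd_mul_single (x : Gamma) (u v : Fin 8) (T : H0 u v) (T' : H1 u v) (u' : Fin 8) :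
    blk u' v (snd (x * single u v T T').val) =
      blk u' u (fst x.val) * T'.1 + blk u' u (snd x.val) * T.1 := by
  rw [Gamma.val_mul, DualNumber.snd_mul, fst_single, snd_single, map_add, mul_blkEmb_blk,
    mul_blkEmb_blk, blk_blkEmb_self, blk_blkEmb_self]

end Vale.Agent.P195.Model
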