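import Vale.Agent.P195.Model.Lattice

/-!
The eight-vertex algebra, its idempotent, its character and their elementary properties.
-/

namespace Vale.Agent.P195.Model

open MvPolynomial Matrix TrivSqZeroExt

/-- The objects at the eight vertices: five of the first colour, then three of the second. -/
def obj : Fin 8 → Ob :=
  ![.line 0 0, .line 1 0, .line 2 0, .pair 1, .pair 2, .line 0 1, .pair 2, .line 1 0]

/-- The first colour. -/
abbrev isA (u : Fin 8) : Prop := u.1 < 5

/-- The vertex of the simple module. -/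
abbrev om : Fin 8 := 5

/-- The rank at a vertex. -/
abbrev rk (u : Fin 8) : ℕ := (obj u).rk

/-- All components. -/
abbrev Idx := Σ u : Fin 8, Fin (rk u)

/-- Matrices over the operators. -/
abbrev Mat := Matrix Idx Idx D

/-- A block of a matrix. -/
def blk (u v : Fin 8) : Mat →ₗ[ℚ] Matrix (Fin (rk u)) (Fin (rk v)) D where
  toFun T := fun i k => T ⟨u, i⟩ ⟨v, k⟩
  map_add' _ _ := rfl
  map_smul' _ _ := rfl

theorem blk_mul (S T : Mat) (u v : Fin 8) :
    blk u v (S * T) = ∑ w, blk u w S * blk w v T := by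
  refine Matrix.ext fun i k => ?_
  rw [Matrix.sum_apply]
  show ∑ x : Idx, S ⟨u, i⟩ x * T x ⟨v, k⟩ = _
  rw [Fintype.sum_sigma]
  rfl

theorem blk_one_self (u : Fin 8) : blk u u (1 : Mat) = 1 := by
  refine Matrix.ext fun i k => ?_
  show (1 : Mat) ⟨u, i⟩ ⟨u, k⟩ = _
  by_cases h : i = k
  · subst h
    rw [Matrix.one_apply_eq, Matrix.one_apply_eq]
  · rw [Matrix.one_apply_ne h, Matrix.one_apply_ne]
    intro e
    exact h (eq_of_heq (Sigma.mk.inj_iff.1 e).2)

theorem blk_one_ne {u v : Fin 8} (h : u ≠ v) : blk u v (1 : Mat) = 0 := by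
  refine Matrix.ext fun i k => ?_
  show (1 : Mat) ⟨u, i⟩ ⟨v, k⟩ = _
  rw [Matrix.one_apply_ne]
  · rfl
  · intro e; exact h (congrArg Sigma.fst e)

/-- Allowed blocks of level zero. -/
noncomputable def H0 (u v : Fin 8) : Submodule ℚ (Matrix (Fin (rk u)) (Fin (rk v)) D) :=
  if ¬isA u ∧ isA v then ⊥ else Hom 0 (obj u) (obj v)

/-- Allowed blocks of level one. -/
noncomputable def H1 (u v : Fin 8) : Submodule ℚ (Matrix (Fin (rk u)) (Fin (rk v)) D) :=
  if isA u then Hom 1 (obj u) (obj v) else ⊥

theorem H0_eq {u v : Fin 8} (h : isA u ∨ ¬isA v) : H0 u v = Hom 0 (obj u) (obj v) :=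
  if_neg (by tauto)

theorem H0_bot {u v : Fin 8} (hu : ¬isA u) (hv : isA v) : H0 u v = ⊥ := if_pos ⟨hu, hv⟩

theorem H1_eq {u v : Fin 8} (h : isA u) : H1 u v = Hom 1 (obj u) (obj v) := if_pos h

theorem H1_bot {u v : Fin 8} (h : ¬isA u) : H1 u v = ⊥ := if_neg h

theorem H0_le (u v : Fin 8) : H0 u v ≤ Hom 0 (obj u) (obj v) := by
  unfold H0; split_ifs
  · exact bot_le
  · exact le_rfl

theorem H1_le (u v : Fin 8) : H1 u v ≤ Hom 1 (obj u) (obj v) := by
  unfold H1; split_ifs
  · exact le_rfl
  · exact bot_le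

theorem mul00 {u v w : Fin 8} {S : Matrix (Fin (rk u)) (Fin (rk w)) D}
    {T : Matrix (Fin (rk w)) (Fin (rk v)) D} (hS : S ∈ H0 u w) (hT : T ∈ H0 w v) :
    S * T ∈ H0 u v := by
  by_cases h : ¬isA u ∧ isA v
  · by_cases hw : isA w
    · rw [H0_bot h.1 hw, Submodule.mem_bot] at hS
      simp [hS]
    · rw [H0_bot hw h.2, Submodule.mem_bot] at hT
      simp [hT]
  · rw [H0_eq (by tauto)]
    exact Hom_comp (H0_le _ _ hS) (H0_le _ _ hT)

theorem mul01 {u v w : Fin 8} {S : Matrix (Fin (rk u)) (Fin (rk w)) D}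
    {T : Matrix (Fin (rk w)) (Fin (rk v)) D} (hS : S ∈ H0 u w) (hT : T ∈ H1 w v) :
    S * T ∈ H1 u v := by
  by_cases hu : isA u
  · rw [H1_eq hu]
    exact Hom_comp (H0_le _ _ hS) (H1_le _ _ hT)
  · by_cases hw : isA w
    · rw [H0_bot hu hw, Submodule.mem_bot] at hS
      simp [hS]
    · rw [H1_bot hw, Submodule.mem_bot] at hT
      simp [hT]

theorem mul10 {u v w : Fin 8} {S : Matrix (Fin (rk u)) (Fin (rk w)) D}
    {T : Matrix (Fin (rk w)) (Fin (rk v)) D} (hS : S ∈ H1 u w) (hT : T ∈ H0 w v) :
    S * T ∈ H1 u v := by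
  by_cases hu : isA u
  · rw [H1_eq hu]
    exact Hom_comp (H1_le _ _ hS) (H0_le _ _ hT)
  · rw [H1_bot hu, Submodule.mem_bot] at hS
    simp [hS]

theorem one_mem_H0 (u v : Fin 8) : blk u v (1 : Mat) ∈ H0 u v := by
  by_cases h : u = v
  · subst h
    rw [blk_one_self, H0_eq (by tauto)]
    exact one_mem_Hom _
  · rw [blk_one_ne h]; exact zero_mem _

/-- The algebra as a subalgebra of matrices over the dual numbers of the operators. -/
noncomputable def GammaAlg : Subalgebra ℚ (DualNumber Mat) where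
  carrier := {x | ∀ u v, blk u v (fst x) ∈ H0 u v ∧ blk u v (snd x) ∈ H1 u v}
  mul_mem' {x y} hx hy u v := by
    constructor
    · rw [fst_mul, blk_mul]
      exact Submodule.sum_mem _ fun w _ => mul00 (hx u w).1 (hy w v).1
    · rw [DualNumber.snd_mul, map_add, blk_mul, blk_mul]
      exact add_mem (Submodule.sum_mem _ fun w _ => mul01 (hx u w).1 (hy w v).2)
        (Submodule.sum_mem _ fun w _ => mul10 (hx u w).2 (hy w v).1)
  one_mem' u v := by
    refine ⟨by rw [fst_one]; exact one_mem_H0 u v, ?_⟩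
    rw [snd_one, map_zero]; exact zero_mem _
  add_mem' {x y} hx hy u v := by
    rw [fst_add, snd_add, map_add, map_add]
    exact ⟨add_mem (hx u v).1 (hy u v).1, add_mem (hx u v).2 (hy u v).2⟩
  zero_mem' u v := by simp
  algebraMap_mem' a u v := by
    rw [Algebra.algebraMap_eq_smul_one, fst_smul, snd_smul, fst_one, snd_one, map_smul,
      smul_zero, map_zero]
    exact ⟨Submodule.smul_mem _ a (one_mem_H0 u v), zero_mem _⟩

/-- The type of the algebra. -/
def Gamma : Type := GammaAlg

noncomputable instance instRingGamma : Ring Gamma := inferInstanceAs (Ring GammaAlg)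

noncomputable instance instAlgebraGamma : Algebra ℚ Gamma :=
  inferInstanceAs (Algebra ℚ GammaAlg)

/-- The underlying matrix of dual numbers. -/
noncomputable def Gamma.val (x : Gamma) : DualNumber Mat := Subtype.val (show GammaAlg from x)

theorem Gamma.val_mul (x y : Gamma) : (x * y).val = x.val * y.val := rfl

theorem Gamma.val_add (x y : Gamma) : (x + y).val = x.val + y.val := rfl

theorem Gamma.val_sub (x y : Gamma) : (x - y).val = x.val - y.val := rfl

theorem Gamma.val_neg (x : Gamma) : (-x).val = -x.val := rfl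

theorem Gamma.val_smul (a : ℚ) (x : Gamma) : (a • x).val = a • x.val := rfl

theorem Gamma.val_zero : (0 : Gamma).val = 0 := rfl

theorem Gamma.val_one : (1 : Gamma).val = 1 := rfl

theorem Gamma.ext {x y : Gamma} (h : x.val = y.val) : x = y := Subtype.ext h

theorem mem_GammaAlg {x : DualNumber Mat} :
    x ∈ GammaAlg ↔ ∀ u v, blk u v (fst x) ∈ H0 u v ∧ blk u v (snd x) ∈ H1 u v := Iff.rfl

/-- An element of the algebra from its matrix. -/
noncomputable def Gamma.mk (x : DualNumber Mat)
    (h : ∀ u v, blk u v (fst x) ∈ H0 u v ∧ blk u v (snd x) ∈ H1 u v) : Gamma :=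
  (⟨x, h⟩ : GammaAlg)

theorem Gamma.val_mk (x : DualNumber Mat)
    (h : ∀ u v, blk u v (fst x) ∈ H0 u v ∧ blk u v (snd x) ∈ H1 u v) : (Gamma.mk x h).val = x := rfl

theorem Gamma.mem (x : Gamma) : ∀ u v, blk u v (fst x.val) ∈ H0 u v ∧
    blk u v (snd x.val) ∈ H1 u v := Subtype.property (show GammaAlg from x)

instance finite_H0 (u v : Fin 8) : Module.Finite ℚ (H0 u v) :=
  Submodule.finiteDimensional_of_le (H0_le u v)

instance finite_H1 (u v : Fin 8) : Module.Finite ℚ (H1 u v) :=
  Submodule.finiteDimensional_of_le (H1_le u v)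

/-- Reading off all blocks. -/
noncomputable def blocks : Gamma →ₗ[ℚ] ∀ p : Fin 8 × Fin 8, H0 p.1 p.2 × H1 p.1 p.2 where
  toFun x p := (⟨blk p.1 p.2 (fst x.val), (x.mem p.1 p.2).1⟩, ⟨blk p.1 p.2 (snd x.val), (x.mem p.1 p.2).2⟩)
  map_add' _ _ := rfl
  map_smul' _ _ := rfl

theorem blocks_injective : Function.Injective blocks := by
  intro x y h
  refine Gamma.ext (TrivSqZeroExt.ext (Matrix.ext fun ⟨u, i⟩ ⟨v, k⟩ => ?_)
    (Matrix.ext fun ⟨u, i⟩ ⟨v, k⟩ => ?_))
  · exact congrFun (congrFun (congrArg Subtype.val (congrArg Prod.fst (congrFun h (u, v)))) i) k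
  · exact congrFun (congrFun (congrArg Subtype.val (congrArg Prod.snd (congrFun h (u, v)))) i) k

instance finite_Gamma : Module.Finite ℚ Gamma := by
  have : IsNoetherian ℚ (∀ p : Fin 8 × Fin 8, H0 p.1 p.2 × H1 p.1 p.2) :=
    isNoetherian_of_isNoetherianRing_of_finite ℚ (∀ p : Fin 8 × Fin 8, H0 p.1 p.2 × H1 p.1 p.2)
  exact Module.Finite.of_injective blocks blocks_injective

instance noetherian_Gamma : IsNoetherianRing Gamma :=
  IsNoetherianRing.of_finite ℚ Gamma

/-- The block-diagonal projection onto a set of vertices. -/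
noncomputable def proj (s : Fin 8 → Bool) : Mat := Matrix.diagonal fun x => if s x.1 then 1 else 0

theorem blk_proj_mul (s : Fin 8 → Bool) (T : Mat) (u v : Fin 8) :
    blk u v (proj s * T) = if s u then blk u v T else 0 := by
  refine Matrix.ext fun i k => ?_
  show (proj s * T) ⟨u, i⟩ ⟨v, k⟩ = _
  rw [proj, Matrix.diagonal_mul]
  dsimp only
  split_ifs
  · exact one_mul _
  · exact zero_mul _

theorem blk_mul_proj (s : Fin 8 → Bool) (T : Mat) (u v : Fin 8) :
    blk u v (T * proj s) = if s v then blk u v T else 0 := by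
  refine Matrix.ext fun i k => ?_
  show (T * proj s) ⟨u, i⟩ ⟨v, k⟩ = _
  rw [proj, Matrix.mul_diagonal]
  dsimp only
  split_ifs
  · exact mul_one _
  · exact mul_zero _

/-- Idempotents attached to sets of vertices. -/
noncomputable def idem (s : Fin 8 → Bool) : Gamma :=
  Gamma.mk (inl (proj s)) fun u v => by
    refine ⟨?_, by simp⟩
    rw [fst_inl, ← mul_one (proj s), blk_proj_mul]
    split_ifs
    · exact one_mem_H0 u v
    · exact zero_mem _

theorem idem_val (s : Fin 8 → Bool) : (idem s).val = inl (proj s) := rfl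

theorem idem_mul_idem (s t : Fin 8 → Bool) : idem s * idem t = idem fun u => s u && t u := by
  refine Gamma.ext ?_
  show inl (proj s) * inl (proj t) = inl (proj fun u => s u && t u)
  rw [← inl_mul]
  simp only [proj, Matrix.diagonal_mul_diagonal]
  congr 2
  funext x
  by_cases hs : s x.1 <;> simp [hs]

theorem idem_add_compl (s : Fin 8 → Bool) : idem s + idem (fun u => !s u) = 1 := by
  refine Gamma.ext ?_
  show inl (proj s) + inl (proj fun u => !s u) = 1
  rw [← inl_add, ← inl_one]
  simp only [proj, Matrix.diagonal_add]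
  congr 1
  rw [← Matrix.diagonal_one]
  congr 1
  funext x
  by_cases hs : s x.1 <;> simp [hs]

/-- The idempotent of all vertices but the one of the simple module. -/
noncomputable def e : Gamma := idem fun u => !(u == om)

/-- The idempotent of a single vertex. -/
noncomputable def eV (v : Fin 8) : Gamma := idem fun u => u == v

theorem isIdempotentElem_e : IsIdempotentElem e := by
  rw [IsIdempotentElem, e, idem_mul_idem]
  simp

theorem one_sub_e : 1 - e = eV om := by
  have h : eV om + e = 1 := by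
    rw [eV, e]
    exact idem_add_compl fun u => u == om
  rw [← h]
  exact add_sub_cancel_right (eV om) e

/-! ### The vertex of the simple module -/

theorem om_row {v : Fin 8} {T : Matrix (Fin (rk om)) (Fin (rk v)) D} (hT : T ∈ H0 om v) :
    T (0 : Fin 1) ∈ (obj v).M 0 (-1) := by
  have := (mem_Hom_line (a := 0) (s := 1)).1 (H0_le om v hT)
  simpa using this

theorem om_om_scalar {T : Matrix (Fin (rk om)) (Fin (rk om)) D} (hT : T ∈ H0 om om) :
    ∃ a : ℚ, T (0 : Fin 1) (0 : Fin 1) = algebraMap ℚ D a := by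
  have := (mem_line (a := 0) (s := 1)).1 (om_row hT)
  exact Ord_zero_zero (by simpa using this)

theorem zdot_pair_eq_zero {c : ℕ} {f : Fin 2 → D} (h0 : f 0 ∈ Ord c (-1)) (h1 : f 1 ∈ Ord c (-1))
    (h : zdot f ∈ Ord 0 0) : zdot f = 0 := by
  classical
  rw [← map_ant_Sym] at h0 h1 h
  obtain ⟨F0, hF0, e0⟩ := h0
  obtain ⟨F1, hF1, e1⟩ := h1
  obtain ⟨G, hG, eG⟩ := h
  have hsum : G = F0.mapRange (· * X 0) (zero_mul _) + F1.mapRange (· * X 1) (zero_mul _) := by
    refine ant_injective ?_
    rw [eG, map_add, ← ant_add_single_mul, ← ant_add_single_mul, e0, e1, zdot_apply]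
  have hz : G = 0 := by
    refine Finsupp.ext fun β => ?_
    by_cases hβ : β = (0, 0)
    · subst hβ
      have a0 := (hF0 (0, 0)).1
      have a1 := (hF1 (0, 0)).1
      rw [H_neg (by simp [sz]), Submodule.mem_bot] at a0 a1
      rw [hsum]
      simp [a0, a1]
    · refine (hG β).2 ?_
      obtain ⟨x, y⟩ := β
      simp only [sz]
      have : x ≠ 0 ∨ y ≠ 0 := by
        by_contra hh
        push Not at hh
        exact hβ (Prod.ext hh.1 hh.2)
      omega
  rw [← eG, hz, map_zero]

theorem om_loop_zero {w : Fin 8} (hw : w ≠ om) {S : Matrix (Fin (rk om)) (Fin (rk w)) D}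
    {T : Matrix (Fin (rk w)) (Fin (rk om)) D} (hS : S ∈ H0 om w) (hT : T ∈ H0 w om) :
    S * T = 0 := by
  by_cases hA : isA w
  · rw [H0_bot (show ¬isA om by decide) hA, Submodule.mem_bot] at hS
    simp [hS]
  · have hcases : ∀ x : Fin 8, x ≠ om → ¬isA x → x = 6 ∨ x = 7 := by decide
    obtain rfl | rfl : w = 6 ∨ w = 7 := hcases w hw hA
    · have hs := (mem_pair (c := 2)).1 (om_row hS)
      obtain ⟨r0, r1, r2⟩ := (mem_Hom_pair (c := 2)).1 (H0_le _ _ hT)
      have r0' := (mem_line (a := 0) (s := 1)).1 r0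
      have r1' := (mem_line (a := 0) (s := 1)).1 r1
      have r2' := (mem_line (a := 0) (s := 1)).1 r2
      rw [Ord_eq_bot (by simp), Submodule.mem_bot] at r2'
      rw [← map_ant_Sym] at r0' r1'
      obtain ⟨F0, hF0, e0⟩ := r0'
      obtain ⟨F1, hF1, e1⟩ := r1'
      have q : ∀ (F : ℕ × ℕ →₀ Pol), F ∈ Sym ((0 : ℤ) + ((0 : ℕ) : ℤ)) (0 + ((1 : ℕ) : ℤ)) →
          ant F = mlt (F (0, 0)) ∧ F (0, 0) ∈ H 1 := by
        intro F hF
        refine ⟨?_, by simpa [sz] using (hF (0, 0)).1⟩
        have hs : F = Finsupp.single (0, 0) (F (0, 0)) := by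
          refine Finsupp.ext fun β => ?_
          by_cases hβ : β = (0, 0)
          · simp [hβ]
          · obtain ⟨x, y⟩ := β
            rw [Finsupp.single_eq_of_ne hβ]
            refine (hF _).2 ?_
            have : x ≠ 0 ∨ y ≠ 0 := by
              by_contra hh
              push Not at hh
              exact hβ (Prod.ext hh.1 hh.2)
            simp [sz]
            omega
        conv_lhs => rw [hs]
        rw [ant_single, dp_zero, one_mul]
      obtain ⟨g0, hg0⟩ := q F0 hF0
      obtain ⟨g1, hg1⟩ := q F1 hF1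
      have hrel : F1 (0, 0) * X 0 + (-F0 (0, 0)) * X 1 = 0 := by
        refine mlt_injective ?_
        have r3 : mlt (X 1) * T (0 : Fin 2) (0 : Fin 1) -
            mlt (X 0) * T (1 : Fin 2) (0 : Fin 1) = 0 := r2'
        rw [← e0, ← e1, g0, g1] at r3
        rw [map_add, map_mul, map_mul, map_neg, map_zero, dneg_mul, mlt_comm _ (X 0),
          mlt_comm _ (X 1), ← neg_eq_zero, ← r3]
        abel
      obtain ⟨g, k1, k0⟩ := X_dvd_of_relation hrel
      have k0' : F0 (0, 0) = g * X 0 := neg_injective k0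
      refine Matrix.ext fun i k => ?_
      have hi : i = (0 : Fin 1) := Subsingleton.elim (α := Fin 1) _ _
      have hk : k = (0 : Fin 1) := Subsingleton.elim (α := Fin 1) _ _
      subst hi hk
      have e : (S * T) (0 : Fin 1) (0 : Fin 1) =
          S (0 : Fin 1) (0 : Fin 2) * T (0 : Fin 2) (0 : Fin 1) +
            S (0 : Fin 1) (1 : Fin 2) * T (1 : Fin 2) (0 : Fin 1) := Fin.sum_univ_two _
      rw [e, ← e0, ← e1, g0, g1, k0', k1, mul_comm g, mul_comm g, map_mul, map_mul, ← mul_assoc,
        ← mul_assoc, ← add_mul]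
      have hz := zdot_pair_eq_zero (f := S (0 : Fin 1)) (c := 2) (by simpa using hs.1)
        (by simpa using hs.2.1) (by simpa using hs.2.2)
      have hz' : S (0 : Fin 1) (0 : Fin 2) * mlt (X 0) +
          S (0 : Fin 1) (1 : Fin 2) * mlt (X 1) = 0 := hz
      rw [hz']
      exact zero_mul _
    · have hT' : T = 0 := by
        refine Matrix.ext fun i k => ?_
        have hi : i = (0 : Fin 1) := Subsingleton.elim (α := Fin 1) _ _
        have hk : k = (0 : Fin 1) := Subsingleton.elim (α := Fin 1) _ _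
        subst hi hk
        have := (mem_line (a := 0) (s := 1)).1
          ((mem_Hom_line (a := 1) (s := 0)).1 (H0_le _ _ hT))
        rw [Ord_eq_bot (by simp), Submodule.mem_bot] at this
        exact this
      simp [hT']

/-- The scalar of an operator. -/
noncomputable def scalarOf : D →ₗ[ℚ] ℚ where
  toFun x := coeff 0 (x 1)
  map_add' x y := by simp
  map_smul' a x := by simp

theorem scalarOf_algebraMap (a : ℚ) : scalarOf (algebraMap ℚ D a) = a := by
  simp [scalarOf, Module.algebraMap_end_apply, Algebra.smul_def]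

/-- The character of the simple module. -/
noncomputable def chiFun (x : Gamma) : ℚ :=
  scalarOf (blk om om (fst x.val) (0 : Fin 1) (0 : Fin 1))

theorem chiFun_spec (x : Gamma) :
    blk om om (fst x.val) (0 : Fin 1) (0 : Fin 1) = algebraMap ℚ D (chiFun x) := by
  obtain ⟨a, ha⟩ := om_om_scalar (x.mem om om).1
  rw [chiFun, ha, scalarOf_algebraMap]

theorem chiFun_mul (x y : Gamma) : chiFun (x * y) = chiFun x * chiFun y := by
  have h : blk om om (fst (x * y : Gamma).val) = blk om om (fst x.val) * blk om om (fst y.val) := by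
    rw [Gamma.val_mul, fst_mul, blk_mul, Finset.sum_eq_single om]
    · intro w _ hw
      exact om_loop_zero hw (x.mem om w).1 (y.mem w om).1
    · intro h; exact absurd (Finset.mem_univ _) h
  conv_lhs => rw [chiFun, h]
  have e : (blk om om (fst x.val) * blk om om (fst y.val)) (0 : Fin 1) (0 : Fin 1) =
      blk om om (fst x.val) (0 : Fin 1) (0 : Fin 1) * blk om om (fst y.val) (0 : Fin 1) (0 : Fin 1) :=
    Fin.sum_univ_one _
  rw [e, chiFun_spec, chiFun_spec, ← map_mul, scalarOf_algebraMap]

theorem chiFun_smul (a : ℚ) (x : Gamma) : chiFun (a • x) = a * chiFun x := by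
  show scalarOf (a • blk om om (fst x.val) (0 : Fin 1) (0 : Fin 1)) = _
  rw [map_smul, smul_eq_mul]
  rfl

theorem chiFun_one : chiFun 1 = 1 := by
  show scalarOf (blk om om (1 : Mat) (0 : Fin 1) (0 : Fin 1)) = 1
  rw [blk_one_self]
  have := scalarOf_algebraMap 1
  rw [map_one] at this
  exact (congrArg scalarOf (Matrix.one_apply_eq (0 : Fin 1))).trans this

/-- The character as an algebra map. -/
noncomputable def chi : Gamma →ₐ[ℚ] ℚ :=
  AlgHom.ofLinearMap
    { toFun := chiFun
      map_add' := fun x y => by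
        show scalarOf (blk om om (fst (x.val + y.val)) (0 : Fin 1) (0 : Fin 1)) = _
        rw [fst_add, map_add]
        exact map_add scalarOf _ _
      map_smul' := fun a x => chiFun_smul a x }
    chiFun_one chiFun_mul

theorem chi_apply (x : Gamma) : chi x = chiFun x := rfl

theorem blk_proj (s : Fin 8 → Bool) (u : Fin 8) : blk u u (proj s) = if s u then 1 else 0 := by
  rw [← mul_one (proj s), blk_proj_mul, blk_one_self]

theorem chi_e : chi e = 0 := by
  show scalarOf (blk om om (proj fun u => !(u == om)) (0 : Fin 1) (0 : Fin 1)) = 0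
  rw [blk_proj]
  simp only [beq_self_eq_true, Bool.not_true, Bool.false_eq_true, if_false]
  exact map_zero scalarOf

theorem om_snd (x : Gamma) (v : Fin 8) : blk om v (snd x.val) = 0 := by
  have := (x.mem om v).2
  rwa [H1_bot (show ¬isA om by decide), Submodule.mem_bot] at this

theorem ext_blk {x y : Gamma} (h0 : ∀ u v, blk u v (fst x.val) = blk u v (fst y.val))
    (h1 : ∀ u v, blk u v (snd x.val) = blk u v (snd y.val)) : x = y :=
  Gamma.ext (TrivSqZeroExt.ext
    (Matrix.ext fun ⟨u, i⟩ ⟨v, k⟩ => congrFun (congrFun (h0 u v) i) k)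
    (Matrix.ext fun ⟨u, i⟩ ⟨v, k⟩ => congrFun (congrFun (h1 u v) i) k))

theorem fst_idem_mul (s : Fin 8 → Bool) (x : Gamma) :
    fst (idem s * x).val = proj s * fst x.val := by
  rw [Gamma.val_mul, fst_mul, idem_val, fst_inl]

theorem snd_idem_mul (s : Fin 8 → Bool) (x : Gamma) :
    snd (idem s * x).val = proj s * snd x.val := by
  rw [Gamma.val_mul, DualNumber.snd_mul, idem_val, fst_inl, snd_inl, zero_mul, add_zero]

theorem fst_mul_idem (s : Fin 8 → Bool) (x : Gamma) :
    fst (x * idem s).val = fst x.val * proj s := by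
  rw [Gamma.val_mul, fst_mul, idem_val, fst_inl]

theorem snd_mul_idem (s : Fin 8 → Bool) (x : Gamma) :
    snd (x * idem s).val = snd x.val * proj s := by
  rw [Gamma.val_mul, DualNumber.snd_mul, idem_val, fst_inl, snd_inl, mul_zero, zero_add]

/-- The corner at the vertex of the simple module is the field. -/
theorem om_corner (g : Gamma) : eV om * g * eV om = chi g • eV om := by
  refine ext_blk (fun u v => ?_) fun u v => ?_
  · rw [eV, fst_mul_idem, blk_mul_proj, fst_idem_mul, blk_proj_mul]
    show _ = blk u v (chi g • proj fun w => w == om)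
    rw [map_smul, ← mul_one (proj _), blk_proj_mul]
    by_cases hu : u = om
    · by_cases hv : v = om
      · subst hu hv
        refine Matrix.ext fun i k => ?_
        have hi : i = (0 : Fin 1) := Subsingleton.elim (α := Fin 1) _ _
        have hk : k = (0 : Fin 1) := Subsingleton.elim (α := Fin 1) _ _
        subst hi hk
        simp only [beq_self_eq_true, if_true, chi_apply, blk_one_self]
        rw [chiFun_spec, Algebra.algebraMap_eq_smul_one]
        show chiFun g • (1 : D) = chiFun g • ((1 : Matrix (Fin 1) (Fin 1) D) 0 0)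
        rw [Matrix.one_apply_eq]
      · subst hu
        simp [hv, blk_one_ne (Ne.symm hv)]
    · simp [hu]
  · rw [eV, snd_mul_idem, blk_mul_proj, snd_idem_mul, blk_proj_mul]
    show _ = blk u v (chi g • (0 : Mat))
    rw [smul_zero, map_zero]
    by_cases hu : u = om
    · subst hu; simp [om_snd g]
    · simp [hu]

/-- First hypothesis on the simple module. -/
theorem hact (g : Gamma) : (1 - e) * g * (1 - e) - chi g • (1 - e) ∈
    Submodule.span Gamma (Set.range fun p : Gamma => e * p) := by
  have h : (1 - e) * g * (1 - e) - chi g • (1 - e) = 0 := by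
    rw [one_sub_e, om_corner]
    exact sub_self (chi g • eV om)
  rw [h]
  exact zero_mem _

/-- An element of level zero concentrated in one block. -/
noncomputable def blkEmb (u v : Fin 8) (T : Matrix (Fin (rk u)) (Fin (rk v)) D) : Mat := fun x y =>
  if h : x.1 = u ∧ y.1 = v then T (h.1 ▸ x.2) (h.2 ▸ y.2) else 0

theorem blk_blkEmb_self (u v : Fin 8) (T : Matrix (Fin (rk u)) (Fin (rk v)) D) :
    blk u v (blkEmb u v T) = T := by
  refine Matrix.ext fun i k => ?_
  show blkEmb u v T ⟨u, i⟩ ⟨v, k⟩ = T i k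
  rw [blkEmb, dif_pos ⟨rfl, rfl⟩]

theorem blk_blkEmb_ne {u v u' v' : Fin 8} (h : u' ≠ u ∨ v' ≠ v)
    (T : Matrix (Fin (rk u)) (Fin (rk v)) D) : blk u' v' (blkEmb u v T) = 0 := by
  refine Matrix.ext fun i k => ?_
  show blkEmb u v T ⟨u', i⟩ ⟨v', k⟩ = 0
  rw [blkEmb, dif_neg]
  rintro ⟨a, b⟩
  rcases h with h | h
  · exact h a
  · exact h b

/-- The first variable as a one-entry block. -/
noncomputable def zblk : Matrix (Fin (rk 0)) (Fin (rk om)) D := Matrix.of fun _ _ => mlt (X 0)

/-- Multiplication by the first variable, from the first vertex to the vertex of the simple. -/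
noncomputable def toOm : Gamma :=
  Gamma.mk (inl (blkEmb 0 om zblk)) fun u v => by
    refine ⟨?_, by simp⟩
    rw [fst_inl]
    by_cases h : u ≠ 0 ∨ v ≠ om
    · rw [blk_blkEmb_ne h]; exact zero_mem _
    · push Not at h
      obtain ⟨rfl, rfl⟩ := h
      rw [blk_blkEmb_self, H0_eq (Or.inl (show isA 0 by decide))]
      refine (mem_Hom_line (a := 0) (s := 0)).2 ?_
      refine (mem_line (a := 0) (s := 1)).2 ?_
      show mlt (X 0) ∈ Ord (-((0 : ℕ) : ℤ) + ((0 : ℕ) : ℤ)) (0 - ((0 : ℕ) : ℤ) + ((1 : ℕ) : ℤ))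
      simpa using mlt_mem_Ord (X_mem_H 0) le_rfl

/-- Second hypothesis on the simple module. -/
theorem hhom (y : Gamma) (hy : ∀ g, g * y = chi g • y) : y = 0 := by
  have he : e * y = 0 := by rw [hy, chi_e, zero_smul]
  have hrow0 : ∀ u v, u ≠ om → blk u v (fst y.val) = 0 := by
    intro u v hu
    have h := congrArg (fun z : Gamma => blk u v (fst z.val)) he
    have h2 : blk u v (fst (e * y).val) = blk u v (fst y.val) := by
      rw [e, fst_idem_mul, blk_proj_mul, if_pos (by simp [hu])]
    rw [← h2]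
    exact h.trans (map_zero (blk u v))
  have hrow1 : ∀ u v, blk u v (snd y.val) = 0 := by
    intro u v
    by_cases hu : u = om
    · subst hu; exact om_snd y v
    · have h := congrArg (fun z : Gamma => blk u v (snd z.val)) he
      have h2 : blk u v (snd (e * y).val) = blk u v (snd y.val) := by
        rw [e, snd_idem_mul, blk_proj_mul, if_pos (by simp [hu])]
      rw [← h2]
      exact h.trans (map_zero (blk u v))
  have hchi : chi toOm = 0 := by
    show scalarOf (blk om om (blkEmb 0 om zblk) (0 : Fin 1) (0 : Fin 1)) = 0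
    rw [blk_blkEmb_ne (Or.inl (by decide))]
    exact map_zero scalarOf
  have hz : toOm * y = 0 := by rw [hy, hchi, zero_smul]
  refine ext_blk (fun u v => ?_) fun u v => by simpa [Gamma.val_zero] using hrow1 u v
  show blk u v (fst y.val) = blk u v (0 : Mat)
  rw [map_zero]
  by_cases hu : u = om
  · subst hu
    refine Matrix.ext fun i k => ?_
    have hi : i = (0 : Fin 1) := Subsingleton.elim (α := Fin 1) _ _
    subst hi
    have h := congrArg (fun z : Gamma => blk 0 v (fst z.val) (0 : Fin 1) k) hz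
    simp only [Gamma.val_mul, fst_mul, toOm, Gamma.val_mk, fst_inl, blk_mul] at h
    rw [Finset.sum_eq_single om, blk_blkEmb_self] at h
    · have h' : mlt (X 0) * blk om v (fst y.val) (0 : Fin 1) k = 0 :=
        (Fin.sum_univ_one fun i => zblk (0 : Fin 1) i * blk om v (fst y.val) i k).symm.trans h
      refine LinearMap.ext fun p => ?_
      have := LinearMap.congr_fun h' p
      exact (mul_eq_zero.1 (show X 0 * (blk om v (fst y.val) (0 : Fin 1) k) p = 0 from this)).resolve_left
        (X_ne_zero 0)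
    · intro w _ hw
      rw [blk_blkEmb_ne (Or.inr hw)]
      simp
    · intro hh; exact absurd (Finset.mem_univ _) hh
  · exact hrow0 u v hu

end Vale.Agent.P195.Model
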