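import Vale.Agent.P195.Model.Weyl

/-!
Filtered lattices over the Weyl operators and the spaces of matrices preserving them.
-/

namespace Vale.Agent.P195.Model

open MvPolynomial Matrix

/-- The objects: twisted line lattices and two-term kernels. -/
inductive Ob
  /-- The line lattice with twists `a` (order) and `s` (weight). -/
  | line (a s : ℕ)
  /-- The kernel lattice with twist `c`. -/
  | pair (c : ℕ)
  deriving DecidableEq

/-- The rank of an object. -/
@[reducible] def Ob.rk : Ob → ℕ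
  | .line _ _ => 1
  | .pair _ => 2

/-- The combination of a row by the two variables. -/
noncomputable def zdot : (Fin 2 → D) →ₗ[ℚ] D where
  toFun f := f 0 * mlt (X 0) + f 1 * mlt (X 1)
  map_add' f g := by simp only [Pi.add_apply, add_mul]; abel
  map_smul' a f := by simp

theorem zdot_apply (f : Fin 2 → D) : zdot f = f 0 * mlt (X 0) + f 1 * mlt (X 1) := rfl

/-- The lattice of an object in filtration degree `j` and weight `b`. -/
noncomputable def Ob.M : (u : Ob) → ℤ → ℤ → Submodule ℚ (Fin u.rk → D)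
  | .line a s, j, b => Submodule.pi Set.univ fun _ => Ord (j + a) (b + s)
  | .pair c, j, b =>
    (Submodule.pi Set.univ fun _ : Fin 2 => Ord (j + c) b) ⊓ (Ord j (b + 1)).comap zdot

theorem mem_line {a s : ℕ} {j b : ℤ} {x : Fin (Ob.line a s).rk → D} :
    x ∈ (Ob.line a s).M j b ↔ x (0 : Fin 1) ∈ Ord (j + a) (b + s) := by
  refine ⟨fun h => h (0 : Fin 1) (Set.mem_univ _), fun h i _ => ?_⟩
  have : i = (0 : Fin 1) := Subsingleton.elim (α := Fin 1) _ _
  subst this
  exact h

theorem mem_pair {c : ℕ} {j b : ℤ} {x : Fin (Ob.pair c).rk → D} :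
    x ∈ (Ob.pair c).M j b ↔
      x (0 : Fin 2) ∈ Ord (j + c) b ∧ x (1 : Fin 2) ∈ Ord (j + c) b ∧
        zdot x ∈ Ord j (b + 1) := by
  refine ⟨fun h => ⟨h.1 (0 : Fin 2) (Set.mem_univ _), h.1 (1 : Fin 2) (Set.mem_univ _), h.2⟩,
    fun h => ⟨fun i _ => ?_, h.2.2⟩⟩
  fin_cases i
  · exact h.1
  · exact h.2.1

/-- Lattices are stable under left multiplication. -/
theorem M_left_mul {u : Ob} {p q j b : ℤ} {g : D} (hg : g ∈ Ord p q) {x : Fin u.rk → D}
    (hx : x ∈ u.M j b) : g • x ∈ u.M (p + j) (q + b) := by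
  cases u with
  | line a s =>
    rw [mem_line] at hx ⊢
    have := Ord_mul hg hx
    rw [add_assoc, add_assoc]
    exact this
  | pair c =>
    rw [mem_pair] at hx ⊢
    obtain ⟨h0, h1, h2⟩ := hx
    refine ⟨?_, ?_, ?_⟩
    · rw [add_assoc]; exact Ord_mul hg h0
    · rw [add_assoc]; exact Ord_mul hg h1
    · rw [add_assoc]
      have e : zdot (g • x) = g * zdot x := by
        simp [zdot_apply, mul_add, mul_assoc]
      rw [e]
      exact Ord_mul hg h2

/-- Matrices mapping one lattice into another, shifting the weight by `t`. -/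
noncomputable def Hom (t : ℤ) (u v : Ob) : Submodule ℚ (Matrix (Fin u.rk) (Fin v.rk) D) where
  carrier := {T | ∀ (j b : ℤ), ∀ x ∈ u.M j b, x ᵥ* T ∈ v.M j (b + t)}
  zero_mem' j b x _ := by simp
  add_mem' {S T} hS hT j b x hx := by
    rw [vecMul_add]; exact add_mem (hS j b x hx) (hT j b x hx)
  smul_mem' a T hT j b x hx := by
    rw [vecMul_smul]; exact Submodule.smul_mem _ a (hT j b x hx)

theorem mem_Hom {t : ℤ} {u v : Ob} {T : Matrix (Fin u.rk) (Fin v.rk) D} :
    T ∈ Hom t u v ↔ ∀ (j b : ℤ), ∀ x ∈ u.M j b, x ᵥ* T ∈ v.M j (b + t) := Iff.rfl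

theorem Hom_comp {t t' : ℤ} {u v w : Ob} {T : Matrix (Fin u.rk) (Fin v.rk) D}
    {S : Matrix (Fin v.rk) (Fin w.rk) D} (hT : T ∈ Hom t u v) (hS : S ∈ Hom t' v w) :
    T * S ∈ Hom (t + t') u w := by
  intro j b x hx
  rw [← vecMul_vecMul, ← add_assoc]
  exact hS j (b + t) _ (hT j b x hx)

theorem one_mem_Hom (u : Ob) : (1 : Matrix (Fin u.rk) (Fin u.rk) D) ∈ Hom 0 u u := by
  intro j b x hx
  rw [vecMul_one, add_zero]
  exact hx

theorem mem_Hom_line {t : ℤ} {a s : ℕ} {v : Ob}
    {T : Matrix (Fin (Ob.line a s).rk) (Fin v.rk) D} :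
    T ∈ Hom t (Ob.line a s) v ↔ T (0 : Fin 1) ∈ v.M (-a) (t - s) := by
  constructor
  · intro h
    have hx : (fun _ => 1 : Fin (Ob.line a s).rk → D) ∈ (Ob.line a s).M (-a) (-s) := by
      rw [mem_line]
      simpa using one_mem_Ord
    have := h _ _ _ hx
    have e : (fun _ => 1 : Fin (Ob.line a s).rk → D) ᵥ* T = T (0 : Fin 1) := by
      funext k
      simp [vecMul, dotProduct, Ob.rk]
    rwa [e, neg_add_eq_sub] at this
  · intro h j b x hx
    rw [mem_line] at hx
    have e : x ᵥ* T = x (0 : Fin 1) • T (0 : Fin 1) := by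
      funext k
      simp [vecMul, dotProduct, Ob.rk]
    rw [e]
    have := M_left_mul hx h
    convert this using 2 <;> ring

theorem X_dvd_of_relation {p q : Pol} (h : p * X 0 + q * X 1 = 0) :
    ∃ g : Pol, p = g * X 1 ∧ q = -(g * X 0) := by
  have hp : (X 1 : Pol) ∣ p * X 0 := ⟨-q, by linear_combination h⟩
  rcases (X_prime (i := (1 : Fin 2))).dvd_or_dvd hp with ⟨g, rfl⟩ | hbad
  · refine ⟨g, mul_comm _ _, ?_⟩
    have h2 : (q + g * X 0) * X 1 = 0 := by linear_combination h
    exact eq_neg_of_add_eq_zero_left ((mul_eq_zero.1 h2).resolve_right (X_ne_zero 1))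
  · exfalso
    rw [X_dvd_iff_modMonomial_eq_zero] at hbad
    have := congrArg (coeff (Finsupp.single 0 1)) hbad
    rw [coeff_modMonomial_of_not_le _ (by intro hle; simpa using hle 1)] at this
    simp at this

theorem mem_H_of_mul_X {k : ℤ} {g : Pol} (i : Fin 2) (h : g * X i ∈ H k) : g ∈ H (k - 1) := by
  refine (mem_restrictSupport_iff ℚ).2 fun e he => ?_
  have h2 : e + Finsupp.single i 1 ∈ degSet k := (mem_restrictSupport_iff ℚ).1 h <| by
    rw [Finset.mem_coe, mem_support_iff, coeff_mul_X]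
    exact mem_support_iff.1 he
  simp only [degSet, Set.mem_ofPred_eq, Finsupp.add_apply] at h2 ⊢
  revert h2
  fin_cases i <;> simp <;> omega

theorem ant_add_single_mul (F : ℕ × ℕ →₀ Pol) (p : Pol) :
    ant F * mlt p = ant (F.mapRange (· * p) (zero_mul p)) := by
  induction F using Finsupp.induction with
  | zero => simp
  | single_add β q F _ _ ih =>
    rw [map_add, add_mul, ih, Finsupp.mapRange_add (by simp [add_mul]), map_add,
      Finsupp.mapRange_single, ant_single, ant_single, mul_assoc, ← map_mul]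

/-- An element of a kernel lattice differs from a multiple of the Koszul generator by an element
of smaller order. -/
theorem pair_decomp {c : ℕ} {j b : ℤ} {f0 f1 : D} (h0 : f0 ∈ Ord (j + c) b)
    (h1 : f1 ∈ Ord (j + c) b) (h2 : f0 * mlt (X 0) + f1 * mlt (X 1) ∈ Ord j (b + 1)) :
    ∃ g ∈ Ord (j + c) (b - 1),
      f0 - g * mlt (X 1) ∈ Ord j b ∧ f1 + g * mlt (X 0) ∈ Ord j b := by
  classical
  rw [← map_ant_Sym] at h0 h1
  obtain ⟨F0, hF0, rfl⟩ := h0
  obtain ⟨F1, hF1, rfl⟩ := h1
  rw [ant_add_single_mul, ant_add_single_mul, ← map_add, ← map_ant_Sym] at h2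
  obtain ⟨G, hG, hGe⟩ := h2
  have hrel : ∀ β, j < sz β → F0 β * X 0 + F1 β * X 1 = 0 := by
    intro β hβ
    have := congrArg (fun F : ℕ × ℕ →₀ Pol => F β) (ant_injective hGe)
    simpa [(hG β).2 hβ] using this.symm
  have hex : ∀ β, ∃ g : Pol, g ∈ H (sz β + (b - 1)) ∧ (j < sz β → F0 β = g * X 1 ∧
      F1 β = -(g * X 0)) ∧ (j + c < sz β → g = 0) ∧ (F0 β = 0 → g = 0) := by
    intro β
    by_cases hβ : j < sz β
    · obtain ⟨g, hg0, hg1⟩ := X_dvd_of_relation (hrel β hβ)
      refine ⟨g, ?_, fun _ => ⟨hg0, hg1⟩, fun h => ?_, fun h => ?_⟩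
      · rw [← add_sub_assoc]
        exact mem_H_of_mul_X 1 (hg0 ▸ (hF0 β).1)
      · exact (mul_eq_zero.1 (hg0.symm.trans ((hF0 β).2 h))).resolve_right (X_ne_zero 1)
      · exact (mul_eq_zero.1 (hg0.symm.trans h)).resolve_right (X_ne_zero 1)
    · exact ⟨0, zero_mem _, fun h => absurd h hβ, fun _ => rfl, fun _ => rfl⟩
  choose g hgH hgrel hgtop hgsupp using hex
  let K : ℕ × ℕ →₀ Pol := Finsupp.onFinset F0.support g fun β hne =>
    Finsupp.mem_support_iff.2 fun h => hne (hgsupp β h)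
  have hKapp : ∀ β, K β = g β := fun β => Finsupp.onFinset_apply
  refine ⟨ant K, ?_, ?_, ?_⟩
  · rw [← map_ant_Sym]
    exact ⟨K, fun β => ⟨by rw [hKapp]; exact hgH β, fun h => by rw [hKapp]; exact hgtop β h⟩,
      rfl⟩
  · rw [ant_add_single_mul, ← map_sub, ← map_ant_Sym]
    refine ⟨_, fun β => ⟨?_, fun h => ?_⟩, rfl⟩
    · rw [Finsupp.sub_apply, Finsupp.mapRange_apply, hKapp]
      refine sub_mem (hF0 β).1 ?_
      have := mul_mem_H (hgH β) (X_mem_H 1)
      rwa [show sz β + (b - 1) + 1 = sz β + b by ring] at this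
    · rw [Finsupp.sub_apply, Finsupp.mapRange_apply, hKapp, (hgrel β h).1, sub_self]
  · rw [ant_add_single_mul, ← map_add, ← map_ant_Sym]
    refine ⟨_, fun β => ⟨?_, fun h => ?_⟩, rfl⟩
    · rw [Finsupp.add_apply, Finsupp.mapRange_apply, hKapp]
      refine add_mem (hF1 β).1 ?_
      have := mul_mem_H (hgH β) (X_mem_H 0)
      rwa [show sz β + (b - 1) + 1 = sz β + b by ring] at this
    · rw [Finsupp.add_apply, Finsupp.mapRange_apply, hKapp, (hgrel β h).2, neg_add_cancel]

theorem dneg_mul (a b : D) : -a * b = -(a * b) := LinearMap.ext fun _ => rfl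

theorem split_identity {R : Type*} [Ring R] (a b g y z T0 T1 : R) :
    a * T0 + b * T1 = (a - g * y) * T0 + (b + g * z) * T1 + g * (y * T0 - z * T1) := by
  simp only [sub_mul, add_mul, mul_sub, mul_assoc]
  abel

/-- The Koszul generator of a kernel lattice. -/
noncomputable def kos : Fin 2 → D := ![mlt (X 1), -mlt (X 0)]

theorem mem_Hom_pair {t : ℤ} {c : ℕ} {v : Ob}
    {T : Matrix (Fin (Ob.pair c).rk) (Fin v.rk) D} :
    T ∈ Hom t (Ob.pair c) v ↔ T (0 : Fin 2) ∈ v.M 0 t ∧ T (1 : Fin 2) ∈ v.M 0 t ∧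
      mlt (X 1) • T (0 : Fin 2) - mlt (X 0) • T (1 : Fin 2) ∈ v.M (-c) (1 + t) := by
  have hv : ∀ x : Fin (Ob.pair c).rk → D,
      x ᵥ* T = x (0 : Fin 2) • T (0 : Fin 2) + x (1 : Fin 2) • T (1 : Fin 2) := by
    intro x
    funext k
    simp [vecMul, dotProduct, Fin.sum_univ_two, Ob.rk]
  constructor
  · intro h
    have e0 : (![1, 0] : Fin 2 → D) ∈ (Ob.pair c).M 0 0 := by
      rw [mem_pair]
      refine ⟨?_, ?_, ?_⟩
      · simpa using Ord_mono (show (0 : ℤ) ≤ c by omega) one_mem_Ord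
      · simp
      · simpa [zdot_apply] using mlt_mem_Ord (X_mem_H 0) le_rfl
    have e1 : (![0, 1] : Fin 2 → D) ∈ (Ob.pair c).M 0 0 := by
      rw [mem_pair]
      refine ⟨?_, ?_, ?_⟩
      · simp
      · simpa using Ord_mono (show (0 : ℤ) ≤ c by omega) one_mem_Ord
      · simpa [zdot_apply] using mlt_mem_Ord (X_mem_H 1) le_rfl
    have e2 : kos ∈ (Ob.pair c).M (-c) 1 := by
      rw [mem_pair]
      refine ⟨?_, ?_, ?_⟩
      · simpa [kos] using mlt_mem_Ord (X_mem_H 1) le_rfl
      · simpa [kos] using mlt_mem_Ord (X_mem_H 0) le_rfl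
      · simp [zdot_apply, kos, mlt_comm (X 1) (X 0), dneg_mul]
    refine ⟨?_, ?_, ?_⟩
    · have := h _ _ _ e0
      rw [hv] at this
      simpa using this
    · have := h _ _ _ e1
      rw [hv] at this
      simpa using this
    · have := h _ _ _ e2
      rw [hv] at this
      have e : mlt (X 1) • T (0 : Fin 2) - mlt (X 0) • T (1 : Fin 2) =
          kos 0 • T (0 : Fin 2) + kos 1 • T (1 : Fin 2) := by
        funext k
        simp [kos, sub_eq_add_neg, dneg_mul]
      rw [e]
      exact this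
  · intro ⟨r0, r1, r2⟩ j b x hx
    rw [mem_pair] at hx
    obtain ⟨g, hg, k0, k1⟩ := pair_decomp hx.1 hx.2.1 (by simpa [zdot_apply] using hx.2.2)
    have e : x ᵥ* T = (x (0 : Fin 2) - g * mlt (X 1)) • T (0 : Fin 2) +
        (x (1 : Fin 2) + g * mlt (X 0)) • T (1 : Fin 2) +
        g • (mlt (X 1) • T (0 : Fin 2) - mlt (X 0) • T (1 : Fin 2)) := by
      rw [hv]
      funext k
      exact split_identity _ _ _ _ _ _ _
    rw [e]
    refine add_mem (add_mem ?_ ?_) ?_
    · have := M_left_mul k0 r0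
      rwa [add_zero] at this
    · have := M_left_mul k1 r1
      rwa [add_zero] at this
    · have := M_left_mul hg r2
      rwa [add_neg_cancel_right, show b - 1 + (1 + t) = b + t by ring] at this

theorem finite_M (u : Ob) (j b : ℤ) : Module.Finite ℚ (u.M j b) := by
  have key : ∀ (r : ℕ) (J B : ℤ), Module.Finite ℚ
      ↥(Submodule.pi Set.univ fun _ : Fin r => Ord J B) := by
    intro r J B
    let f : ↥(Submodule.pi Set.univ fun _ : Fin r => Ord J B) →ₗ[ℚ] (Fin r → Ord J B) :=
      { toFun := fun x i => ⟨x.1 i, x.2 i (Set.mem_univ i)⟩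
        map_add' := fun _ _ => rfl
        map_smul' := fun _ _ => rfl }
    have : IsNoetherian ℚ (Fin r → Ord J B) := isNoetherian_of_isNoetherianRing_of_finite ℚ (Fin r → Ord J B)
    refine Module.Finite.of_injective f fun x y h => Subtype.ext (_root_.funext fun i => ?_)
    exact congrArg Subtype.val (congrFun h i)
  cases u with
  | line a s => exact key 1 _ _
  | pair c =>
    have := key 2 (j + c) b
    exact Submodule.finiteDimensional_of_le (inf_le_left (b := (Ord j (b + 1)).comap zdot))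

instance finite_Hom (t : ℤ) (u v : Ob) : Module.Finite ℚ (Hom t u v) := by
  cases u with
  | line a s =>
    have := finite_M v (-a) (t - s)
    have : IsNoetherian ℚ (v.M (-a) (t - s)) := isNoetherian_of_isNoetherianRing_of_finite ℚ (v.M (-a) (t - s))
    let f : ↥(Hom t (Ob.line a s) v) →ₗ[ℚ] v.M (-a) (t - s) :=
      { toFun := fun T => ⟨T.1 (0 : Fin 1), mem_Hom_line.1 T.2⟩
        map_add' := fun _ _ => rfl
        map_smul' := fun _ _ => rfl }
    refine Module.Finite.of_injective f fun S T h => Subtype.ext (Matrix.ext fun i k => ?_)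
    have : i = (0 : Fin 1) := Subsingleton.elim (α := Fin 1) _ _
    subst this
    exact congrFun (congrArg Subtype.val h) k
  | pair c =>
    have := finite_M v 0 t
    have : IsNoetherian ℚ (v.M 0 t × v.M 0 t) := isNoetherian_of_isNoetherianRing_of_finite ℚ (v.M 0 t × v.M 0 t)
    let f : ↥(Hom t (Ob.pair c) v) →ₗ[ℚ] (v.M 0 t × v.M 0 t) :=
      { toFun := fun T => (⟨T.1 (0 : Fin 2), (mem_Hom_pair.1 T.2).1⟩,
          ⟨T.1 (1 : Fin 2), (mem_Hom_pair.1 T.2).2.1⟩)
        map_add' := fun _ _ => rfl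
        map_smul' := fun _ _ => rfl }
    refine Module.Finite.of_injective f fun S T h => Subtype.ext (Matrix.ext fun i k => ?_)
    fin_cases i
    · exact congrFun (congrArg Subtype.val (congrArg Prod.fst h)) k
    · exact congrFun (congrArg Subtype.val (congrArg Prod.snd h)) k

end Vale.Agent.P195.Model
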