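import Mathlib

/-!
The Weyl algebra in two variables as operators on rational polynomials, its filtration by order
and weight, and the uniqueness of normal and antinormal forms.
-/

namespace Vale.Agent.P195.Model

open MvPolynomial

/-- Rational polynomials in two variables. -/
abbrev Pol := MvPolynomial (Fin 2) ℚ

/-- Linear operators on polynomials. -/
abbrev D := Module.End ℚ Pol

/-- Multiplication by a polynomial. -/
noncomputable def mlt : Pol →ₐ[ℚ] D := Algebra.lmul ℚ Pol

/-- A partial derivative. -/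
noncomputable def dd (i : Fin 2) : D := (pderiv i).toLinearMap

theorem mlt_apply (p q : Pol) : mlt p q = p * q := rfl

theorem mlt_injective : Function.Injective mlt := fun p q h => by
  have := LinearMap.congr_fun h 1
  rwa [mlt_apply, mlt_apply, mul_one, mul_one] at this

theorem dd_mul_mlt (i : Fin 2) (p : Pol) : dd i * mlt p = mlt p * dd i + mlt (pderiv i p) := by
  refine LinearMap.ext fun q => ?_
  show pderiv i (p * q) = p * pderiv i q + pderiv i p * q
  rw [pderiv_mul]
  ring

theorem mlt_mul_dd (i : Fin 2) (p : Pol) : mlt p * dd i = dd i * mlt p - mlt (pderiv i p) := by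
  rw [dd_mul_mlt, add_sub_cancel_right]

theorem dd_comm_apply (i j : Fin 2) (p : Pol) :
    pderiv i (pderiv j p) = pderiv j (pderiv i p) := by
  induction p using MvPolynomial.induction_on with
  | C a => simp
  | add p q hp hq => simp [hp, hq]
  | mul_X p k hp =>
    classical
    simp only [pderiv_mul, map_add, pderiv_X, hp]
    have hc : ∀ a b : Fin 2, pderiv a (Pi.single (M := fun _ => Pol) b 1 k) = 0 := by
      intro a b
      by_cases h : k = b
      · subst h; simp
      · simp [h]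
    rw [hc, hc]
    ring

theorem dd_comm (i j : Fin 2) : dd i * dd j = dd j * dd i :=
  LinearMap.ext fun p => dd_comm_apply i j p

/-- A monomial in the derivatives. -/
noncomputable def dp (β : ℕ × ℕ) : D := dd 0 ^ β.1 * dd 1 ^ β.2

theorem dp_zero : dp (0, 0) = 1 := by simp [dp]

theorem dd0_mul_dp (β : ℕ × ℕ) : dd 0 * dp β = dp (β.1 + 1, β.2) := by
  simp [dp, pow_succ', mul_assoc]

theorem dd1_mul_dp (β : ℕ × ℕ) : dd 1 * dp β = dp (β.1, β.2 + 1) := by
  show dd 1 * (dd 0 ^ β.1 * dd 1 ^ β.2) = dd 0 ^ β.1 * dd 1 ^ (β.2 + 1)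
  rw [← mul_assoc, (Commute.pow_right (dd_comm 1 0) β.1).eq, mul_assoc, pow_succ']

theorem dp_mul_dp (β γ : ℕ × ℕ) : dp β * dp γ = dp (β.1 + γ.1, β.2 + γ.2) := by
  show dd 0 ^ β.1 * dd 1 ^ β.2 * (dd 0 ^ γ.1 * dd 1 ^ γ.2) = _
  rw [mul_assoc, ← mul_assoc (dd 1 ^ β.2), (Commute.pow_pow (dd_comm 1 0) β.2 γ.1).eq]
  show _ = dd 0 ^ (β.1 + γ.1) * dd 1 ^ (β.2 + γ.2)
  rw [pow_add, pow_add]
  simp only [mul_assoc]

/-! ### Homogeneous polynomials of integer degree -/

/-- Exponents of a given total degree. -/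
def degSet (k : ℤ) : Set (Fin 2 →₀ ℕ) := {e | ((e 0 + e 1 : ℕ) : ℤ) = k}

/-- Homogeneous polynomials of a given integer degree. -/
noncomputable def H (k : ℤ) : Submodule ℚ Pol := restrictSupport ℚ (degSet k)

theorem monomial_mem_H {k : ℤ} {e : Fin 2 →₀ ℕ} (a : ℚ)
    (h : ((e 0 + e 1 : ℕ) : ℤ) = k) : monomial e a ∈ H k := by
  unfold H
  rw [monomial_mem_restrictSupport]
  exact Or.inl h

theorem H_span (k : ℤ) :
    H k = Submodule.span ℚ ((fun e => monomial e (1 : ℚ)) '' degSet k) :=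
  restrictSupport_eq_span _ _

theorem one_mem_H : (1 : Pol) ∈ H 0 := monomial_mem_H (e := 0) 1 (by simp)

theorem X_mem_H (i : Fin 2) : (X i : Pol) ∈ H 1 := by
  refine monomial_mem_H (e := Finsupp.single i 1) 1 ?_
  fin_cases i <;> simp

theorem mul_mem_H {k l : ℤ} {p q : Pol} (hp : p ∈ H k) (hq : q ∈ H l) : p * q ∈ H (k + l) := by
  have key : restrictSupport ℚ (degSet k) * restrictSupport ℚ (degSet l) ≤ H (k + l) := by
    rw [restrictSupport_eq_span, restrictSupport_eq_span, Submodule.span_mul_span,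
      Submodule.span_le]
    rintro _ ⟨_, ⟨a, ha, rfl⟩, _, ⟨b, hb, rfl⟩, rfl⟩
    show monomial a (1 : ℚ) * monomial b 1 ∈ H (k + l)
    rw [monomial_mul]
    refine monomial_mem_H _ ?_
    simp only [degSet, Set.mem_ofPred_eq] at ha hb
    simp only [Finsupp.add_apply]
    omega
  exact key (Submodule.mul_mem_mul hp hq)

theorem pderiv_mem_H {k : ℤ} {p : Pol} (i : Fin 2) (hp : p ∈ H k) : pderiv i p ∈ H (k - 1) := by
  have key : H k ≤ (H (k - 1)).comap (pderiv i).toLinearMap := by
    rw [H_span, Submodule.span_le]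
    rintro _ ⟨e, he, rfl⟩
    show pderiv i (monomial e (1 : ℚ)) ∈ H (k - 1)
    rw [pderiv_monomial]
    rcases Nat.eq_zero_or_pos (e i) with h0 | hpos
    · simp [h0]
    · refine monomial_mem_H _ ?_
      simp only [degSet, Set.mem_ofPred_eq] at he
      revert hpos
      fin_cases i <;> intro hpos <;> simp at hpos ⊢ <;> omega
  exact key hp

theorem degSet_finite (k : ℤ) : (degSet k).Finite := by
  refine (Set.finite_Iic (Finsupp.equivFunOnFinite.symm fun _ => k.toNat)).subset ?_
  intro e he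
  simp only [degSet, Set.mem_ofPred_eq] at he
  intro i
  fin_cases i <;> simp <;> omega

instance finite_H (k : ℤ) : Module.Finite ℚ (H k) := by
  rw [H_span]
  exact Module.Finite.span_of_finite ℚ ((degSet_finite k).image _)

theorem H_neg {k : ℤ} (hk : k < 0) : H k = ⊥ := by
  rw [H_span, Submodule.span_eq_bot]
  rintro _ ⟨e, he, rfl⟩
  simp only [degSet, Set.mem_ofPred_eq] at he
  omega

/-! ### The filtration -/

/-- The size of a derivative exponent. -/
def sz (β : ℕ × ℕ) : ℤ := (β.1 : ℤ) + β.2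

/-- Normally ordered generators of order at most `j` and weight `b`. -/
def normGen (j b : ℤ) : Set D :=
  {x | ∃ (β : ℕ × ℕ) (p : Pol), sz β ≤ j ∧ p ∈ H (sz β + b) ∧ x = mlt p * dp β}

/-- Antinormally ordered generators of order at most `j` and weight `b`. -/
def antiGen (j b : ℤ) : Set D :=
  {x | ∃ (β : ℕ × ℕ) (p : Pol), sz β ≤ j ∧ p ∈ H (sz β + b) ∧ x = dp β * mlt p}

/-- Operators of order at most `j` and weight `b`. -/
noncomputable def Ord (j b : ℤ) : Submodule ℚ D := Submodule.span ℚ (normGen j b)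

theorem mem_Ord_gen {j b : ℤ} {β : ℕ × ℕ} {p : Pol} (hj : sz β ≤ j)
    (hp : p ∈ H (sz β + b)) : mlt p * dp β ∈ Ord j b :=
  Submodule.subset_span ⟨β, p, hj, hp, rfl⟩

theorem Ord_mono {j j' b : ℤ} (h : j ≤ j') : Ord j b ≤ Ord j' b :=
  Submodule.span_mono fun _ ⟨β, p, hj, hp, hx⟩ => ⟨β, p, hj.trans h, hp, hx⟩

theorem mlt_mem_Ord {j k : ℤ} {p : Pol} (hp : p ∈ H k) (hj : 0 ≤ j) : mlt p ∈ Ord j k := by
  have h := mem_Ord_gen (j := j) (b := k) (β := (0, 0)) (p := p) (by simpa [sz] using hj)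
    (by simpa [sz] using hp)
  simpa [dp_zero] using h

theorem one_mem_Ord : (1 : D) ∈ Ord 0 0 := by
  simpa using mlt_mem_Ord (j := 0) one_mem_H le_rfl

theorem dd_mem_Ord (i : Fin 2) : dd i ∈ Ord 1 (-1) := by
  fin_cases i
  · have h := mem_Ord_gen (j := 1) (b := -1) (β := (1, 0)) (p := 1) (by simp [sz])
      (by simpa [sz] using one_mem_H)
    simpa [dp] using h
  · have h := mem_Ord_gen (j := 1) (b := -1) (β := (0, 1)) (p := 1) (by simp [sz])
      (by simpa [sz] using one_mem_H)
    simpa [dp] using h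

theorem mlt_mul_mem {j b k : ℤ} {q : Pol} (hq : q ∈ H k) {x : D} (hx : x ∈ Ord j b) :
    mlt q * x ∈ Ord j (b + k) := by
  induction hx using Submodule.span_induction with
  | mem x hx =>
    obtain ⟨β, p, hj, hp, rfl⟩ := hx
    rw [← mul_assoc, ← map_mul]
    refine mem_Ord_gen hj ?_
    have := mul_mem_H hq hp
    rwa [show k + (sz β + b) = sz β + (b + k) by ring] at this
  | zero => simp
  | add x y _ _ hx hy => rw [mul_add]; exact add_mem hx hy
  | smul a x _ hx => rw [mul_smul_comm]; exact Submodule.smul_mem _ a hx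

theorem dd_mul_mem {j b : ℤ} (i : Fin 2) {x : D} (hx : x ∈ Ord j b) :
    dd i * x ∈ Ord (j + 1) (b - 1) := by
  induction hx using Submodule.span_induction with
  | mem x hx =>
    obtain ⟨β, p, hj, hp, rfl⟩ := hx
    rw [← mul_assoc, dd_mul_mlt, add_mul]
    refine add_mem ?_ ?_
    · rw [mul_assoc]
      fin_cases i
      · dsimp only [Fin.zero_eta, Fin.mk_one, Fin.isValue]
        rw [dd0_mul_dp β]
        refine mem_Ord_gen (by simp [sz] at hj ⊢; omega) ?_
        convert hp using 2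
        simp [sz]; ring
      · dsimp only [Fin.zero_eta, Fin.mk_one, Fin.isValue]
        rw [dd1_mul_dp β]
        refine mem_Ord_gen (by simp [sz] at hj ⊢; omega) ?_
        convert hp using 2
        simp [sz]; ring
    · refine Ord_mono (show j ≤ j + 1 by omega) ?_
      refine mem_Ord_gen hj ?_
      have := pderiv_mem_H i hp
      rwa [show sz β + b - 1 = sz β + (b - 1) by ring] at this
  | zero => simp
  | add x y _ _ hx hy => rw [mul_add]; exact add_mem hx hy
  | smul a x _ hx => rw [mul_smul_comm]; exact Submodule.smul_mem _ a hx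

theorem dp_mul_mem {j b : ℤ} (β : ℕ × ℕ) {x : D} (hx : x ∈ Ord j b) :
    dp β * x ∈ Ord (j + sz β) (b - sz β) := by
  obtain ⟨c, c'⟩ := β
  induction c with
  | zero =>
    induction c' with
    | zero => simpa [dp_zero, sz] using hx
    | succ c' ih =>
      rw [← dd1_mul_dp (0, c'), mul_assoc]
      have := dd_mul_mem 1 ih
      convert this using 2 <;> simp [sz] <;> ring
  | succ c ih =>
    rw [← dd0_mul_dp (c, c'), mul_assoc]
    have := dd_mul_mem 0 ih
    convert this using 2 <;> simp [sz] <;> ring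

/-- The filtration is multiplicative. -/
theorem Ord_mul {j b j' b' : ℤ} {x y : D} (hx : x ∈ Ord j b) (hy : y ∈ Ord j' b') :
    x * y ∈ Ord (j + j') (b + b') := by
  induction hx using Submodule.span_induction with
  | mem x hx =>
    obtain ⟨β, p, hj, hp, rfl⟩ := hx
    rw [mul_assoc]
    refine Ord_mono (show j' + sz β ≤ j + j' by omega) ?_
    have := mlt_mul_mem hp (dp_mul_mem β hy)
    rwa [show b' - sz β + (sz β + b) = b + b' by ring] at this
  | zero => simp
  | add x z _ _ hx hz => rw [add_mul]; exact add_mem hx hz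
  | smul a x _ hx => rw [smul_mul_assoc]; exact Submodule.smul_mem _ a hx

theorem Ord_eq_bot {j b : ℤ} (hj : j < 0) : Ord j b = ⊥ := by
  rw [Ord, Submodule.span_eq_bot]
  rintro _ ⟨β, p, hj', -, rfl⟩
  simp only [sz] at hj'
  omega

theorem normGen_sub (j b : ℤ) : normGen j b ⊆ (Submodule.span ℚ
    (⋃ β ∈ Set.Iic (j.toNat, j.toNat), (fun p : Pol => mlt p * dp β) '' (H (sz β + b) : Set Pol)) :
      Set D) := by
  rintro _ ⟨β, p, hj, hp, rfl⟩
  refine Submodule.subset_span (Set.mem_iUnion₂.2 ⟨β, ?_, p, hp, rfl⟩)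
  simp only [Set.mem_Iic, Prod.le_def, sz] at hj ⊢
  omega

instance finite_Ord (j b : ℤ) : Module.Finite ℚ (Ord j b) := by
  let g : ℕ × ℕ → (Pol →ₗ[ℚ] D) := fun β =>
    (LinearMap.mulRight ℚ (dp β)).comp mlt.toLinearMap
  let s : Finset (ℕ × ℕ) := (Finset.range (j.toNat + 1)) ×ˢ (Finset.range (j.toNat + 1))
  have hle : Ord j b ≤ s.sup fun β => (H (sz β + b)).map (g β) := by
    rw [Ord, Submodule.span_le]
    rintro _ ⟨β, p, hj, hp, rfl⟩
    refine Finset.le_sup (f := fun β => (H (sz β + b)).map (g β)) ?_ ⟨p, hp, rfl⟩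
    simp only [s, Finset.mem_product, Finset.mem_range, sz] at hj ⊢
    omega
  have : Module.Finite ℚ ↥(s.sup fun β => (H (sz β + b)).map (g β)) := inferInstance
  exact Submodule.finiteDimensional_of_le hle

/-! ### Antinormal forms -/

theorem anti_mem_Ord {j b : ℤ} {β : ℕ × ℕ} {p : Pol} (hj : sz β ≤ j)
    (hp : p ∈ H (sz β + b)) : dp β * mlt p ∈ Ord j b := by
  have h := dp_mul_mem β (mlt_mem_Ord hp le_rfl)
  refine Ord_mono hj ?_
  simpa using h

/-- The span of the antinormally ordered generators. -/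
noncomputable def OrdA (j b : ℤ) : Submodule ℚ D := Submodule.span ℚ (antiGen j b)

theorem dd_mul_memA {j b : ℤ} (i : Fin 2) {x : D} (hx : x ∈ OrdA j b) :
    dd i * x ∈ OrdA (j + 1) (b - 1) := by
  induction hx using Submodule.span_induction with
  | mem x hx =>
    obtain ⟨β, p, hj, hp, rfl⟩ := hx
    rw [← mul_assoc]
    fin_cases i
    · dsimp only [Fin.zero_eta, Fin.mk_one, Fin.isValue]
      rw [dd0_mul_dp β]
      refine Submodule.subset_span ⟨_, p, ?_, ?_, rfl⟩
      · simp [sz] at hj ⊢; omega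
      · convert hp using 2; simp [sz]; ring
    · dsimp only [Fin.zero_eta, Fin.mk_one, Fin.isValue]
      rw [dd1_mul_dp β]
      refine Submodule.subset_span ⟨_, p, ?_, ?_, rfl⟩
      · simp [sz] at hj ⊢; omega
      · convert hp using 2; simp [sz]; ring
  | zero => simp
  | add x y _ _ hx hy => rw [mul_add]; exact add_mem hx hy
  | smul a x _ hx => rw [mul_smul_comm]; exact Submodule.smul_mem _ a hx

theorem mlt_dp_memA : ∀ (n : ℕ) (β : ℕ × ℕ) (k : ℤ) (q : Pol), β.1 + β.2 = n → q ∈ H k →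
    mlt q * dp β ∈ OrdA n (k - n) := by
  intro n
  induction n with
  | zero =>
    intro β k q hn hq
    obtain rfl : β = (0, 0) := by ext <;> simp <;> omega
    rw [dp_zero, mul_one]
    refine Submodule.subset_span ⟨(0, 0), q, by simp [sz], by simpa [sz] using hq, ?_⟩
    rw [dp_zero, one_mul]
  | succ n ih =>
    intro β k q hn hq
    have step : ∀ (i : Fin 2) (γ : ℕ × ℕ), γ.1 + γ.2 = n →
        mlt q * (dd i * dp γ) ∈ OrdA (n + 1 : ℕ) (k - (n + 1 : ℕ)) := by
      intro i γ hγ
      rw [← mul_assoc, mlt_mul_dd, sub_mul, mul_assoc]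
      refine sub_mem ?_ ?_
      · have := dd_mul_memA i (ih γ k q hγ hq)
        convert this using 2 <;> push_cast <;> ring
      · have h := ih γ (k - 1) (pderiv i q) hγ (pderiv_mem_H i hq)
        have hsub : OrdA n (k - 1 - n) ≤ OrdA (n + 1 : ℕ) (k - (n + 1 : ℕ)) := by
          refine Submodule.span_mono ?_
          rintro x ⟨δ, p, hδ, hp, rfl⟩
          refine ⟨δ, p, by push_cast; omega, ?_, rfl⟩
          convert hp using 2
          push_cast; ring
        exact hsub h
    obtain ⟨c, c'⟩ := β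
    rcases c with _ | c
    · rcases c' with _ | c'
      · simp at hn
      · have := step 1 (0, c') (by simp at hn ⊢; omega)
        rwa [dd1_mul_dp] at this
    · have := step 0 (c, c') (by simp at hn ⊢; omega)
      rwa [dd0_mul_dp] at this

/-- Antinormally ordered generators span the same space. -/
theorem Ord_eq_OrdA (j b : ℤ) : Ord j b = OrdA j b := by
  refine le_antisymm ?_ ?_
  · rw [Ord, Submodule.span_le]
    rintro _ ⟨β, p, hj, hp, rfl⟩
    have h := mlt_dp_memA (β.1 + β.2) β _ p rfl hp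
    have hsub : OrdA ((β.1 + β.2 : ℕ) : ℤ) (sz β + b - ((β.1 + β.2 : ℕ) : ℤ)) ≤ OrdA j b := by
      refine Submodule.span_mono ?_
      rintro x ⟨δ, r, hδ, hr, rfl⟩
      refine ⟨δ, r, ?_, ?_, rfl⟩
      · simp only [sz] at hj hδ ⊢; push_cast at hδ; omega
      · convert hr using 2
        simp only [sz]; push_cast; ring
    exact hsub h
  · rw [OrdA, Submodule.span_le]
    rintro _ ⟨β, p, hj, hp, rfl⟩
    exact anti_mem_Ord hj hp

/-! ### Uniqueness of normal and antinormal forms -/

/-- An operator with prescribed normal coefficients. -/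
noncomputable def nrm : (ℕ × ℕ →₀ Pol) →ₗ[ℚ] D :=
  Finsupp.lsum ℚ fun β => (LinearMap.mulRight ℚ (dp β)).comp mlt.toLinearMap

/-- An operator with prescribed antinormal coefficients. -/
noncomputable def ant : (ℕ × ℕ →₀ Pol) →ₗ[ℚ] D :=
  Finsupp.lsum ℚ fun β => (LinearMap.mulLeft ℚ (dp β)).comp mlt.toLinearMap

theorem nrm_single (β : ℕ × ℕ) (p : Pol) : nrm (Finsupp.single β p) = mlt p * dp β := by
  simp [nrm]

theorem ant_single (β : ℕ × ℕ) (p : Pol) : ant (Finsupp.single β p) = dp β * mlt p := by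
  simp [ant]

/-- Commutator with a variable. -/
noncomputable def ad (i : Fin 2) : D →ₗ[ℚ] D :=
  LinearMap.mulRight ℚ (mlt (X i)) - LinearMap.mulLeft ℚ (mlt (X i))

theorem ad_apply (i : Fin 2) (x : D) : ad i x = x * mlt (X i) - mlt (X i) * x := rfl

theorem mlt_comm (p q : Pol) : mlt p * mlt q = mlt q * mlt p := by
  rw [← map_mul, ← map_mul, mul_comm]

theorem ad_mlt_mul (i : Fin 2) (p : Pol) (x : D) : ad i (mlt p * x) = mlt p * ad i x := by
  rw [ad_apply, ad_apply, mul_sub, ← mul_assoc (mlt (X i)), mlt_comm, mul_assoc, mul_assoc]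

theorem ad_mul_mlt (i : Fin 2) (p : Pol) (x : D) : ad i (x * mlt p) = ad i x * mlt p := by
  rw [ad_apply, ad_apply, sub_mul, mul_assoc, mlt_comm, ← mul_assoc, ← mul_assoc]

theorem dd_pow_mlt_self (i : Fin 2) (n : ℕ) :
    dd i ^ n * mlt (X i) = mlt (X i) * dd i ^ n + (n : ℚ) • dd i ^ (n - 1) := by
  induction n with
  | zero => simp
  | succ n ih =>
    rw [pow_succ', mul_assoc, ih, mul_add, ← mul_assoc, dd_mul_mlt, pderiv_X_self, map_one,
      add_mul, one_mul, mul_smul_comm, mul_assoc]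
    rcases n with _ | n
    · simp
    · rw [Nat.add_sub_cancel, Nat.add_sub_cancel, ← pow_succ', ← pow_succ', add_assoc]
      congr 1
      push_cast
      module

theorem dd_pow_mlt_ne {i k : Fin 2} (h : k ≠ i) (n : ℕ) :
    dd k ^ n * mlt (X i) = mlt (X i) * dd k ^ n := by
  have h1 : Commute (dd k) (mlt (X i)) := by
    show dd k * mlt (X i) = mlt (X i) * dd k
    rw [dd_mul_mlt, pderiv_X_of_ne h.symm]
    simp
  exact (h1.pow_left n).eq

theorem ad_dp_zero (β : ℕ × ℕ) : ad 0 (dp β) = (β.1 : ℚ) • dp (β.1 - 1, β.2) := by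
  rw [ad_apply, dp, mul_assoc, dd_pow_mlt_ne (show (1 : Fin 2) ≠ 0 by decide), ← mul_assoc,
    dd_pow_mlt_self, add_mul, smul_mul_assoc, mul_assoc]
  simp [dp]

theorem ad_dp_one (β : ℕ × ℕ) : ad 1 (dp β) = (β.2 : ℚ) • dp (β.1, β.2 - 1) := by
  rw [ad_apply, dp, mul_assoc, dd_pow_mlt_self, mul_add, mul_smul_comm, ← mul_assoc,
    dd_pow_mlt_ne (show (0 : Fin 2) ≠ 1 by decide), mul_assoc]
  simp [dp]

/-- Repeated commutators lowering a derivative monomial by `γ`. -/
noncomputable def low (γ : ℕ × ℕ) : D →ₗ[ℚ] D := ad 0 ^ γ.1 * ad 1 ^ γ.2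

theorem ad_pow_zero (c : ℕ) (β : ℕ × ℕ) :
    (ad 0 ^ c) (dp β) = (β.1.descFactorial c : ℚ) • dp (β.1 - c, β.2) := by
  induction c with
  | zero => simp
  | succ c ih =>
    rw [pow_succ', Module.End.mul_apply, ih, map_smul, ad_dp_zero, smul_smul,
      Nat.descFactorial_succ, Nat.sub_sub]
    push_cast
    rw [mul_comm]

theorem ad_pow_one (c : ℕ) (β : ℕ × ℕ) :
    (ad 1 ^ c) (dp β) = (β.2.descFactorial c : ℚ) • dp (β.1, β.2 - c) := by
  induction c with
  | zero => simp
  | succ c ih =>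
    rw [pow_succ', Module.End.mul_apply, ih, map_smul, ad_dp_one, smul_smul,
      Nat.descFactorial_succ, Nat.sub_sub]
    push_cast
    rw [mul_comm]

theorem low_dp (γ β : ℕ × ℕ) :
    low γ (dp β) = ((β.1.descFactorial γ.1 * β.2.descFactorial γ.2 : ℕ) : ℚ) •
      dp (β.1 - γ.1, β.2 - γ.2) := by
  rw [low, Module.End.mul_apply, ad_pow_one, map_smul, ad_pow_zero, smul_smul]
  push_cast
  rw [mul_comm]

theorem pow_ad_mlt_mul (i : Fin 2) (c : ℕ) (p : Pol) (x : D) :
    (ad i ^ c) (mlt p * x) = mlt p * (ad i ^ c) x := by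
  induction c with
  | zero => simp
  | succ c ih => rw [pow_succ', Module.End.mul_apply, ih, ad_mlt_mul, Module.End.mul_apply]

theorem pow_ad_mul_mlt (i : Fin 2) (c : ℕ) (p : Pol) (x : D) :
    (ad i ^ c) (x * mlt p) = (ad i ^ c) x * mlt p := by
  induction c with
  | zero => simp
  | succ c ih => rw [pow_succ', Module.End.mul_apply, ih, ad_mul_mlt, Module.End.mul_apply]

theorem forms_injective (F : (ℕ × ℕ →₀ Pol) →ₗ[ℚ] D)
    (hF : ∀ γ β p, low γ (F (Finsupp.single β p)) =
      ((β.1.descFactorial γ.1 * β.2.descFactorial γ.2 : ℕ) : ℚ) •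
        F (Finsupp.single (β.1 - γ.1, β.2 - γ.2) p))
    (h0 : ∀ p, F (Finsupp.single (0, 0) p) = mlt p) : Function.Injective F := by
  refine (injective_iff_map_eq_zero F).2 fun f hf => ?_
  by_contra hne
  obtain ⟨γ, hγ, hmax⟩ := f.support.exists_max_image (fun β => β.1 + β.2)
    (Finsupp.support_nonempty_iff.2 hne)
  have h1 : low γ (F f) =
      ((γ.1.descFactorial γ.1 * γ.2.descFactorial γ.2 : ℕ) : ℚ) • mlt (f γ) := by
    conv_lhs => rw [← f.sum_single]
    rw [Finsupp.sum, map_sum, map_sum, Finset.sum_eq_single γ]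
    · rw [hF, Nat.sub_self, Nat.sub_self, h0]
    · intro β hβ hne'
      rw [hF]
      have hlt : β.1 < γ.1 ∨ β.2 < γ.2 := by
        by_contra hh
        push Not at hh
        refine hne' (Prod.ext ?_ ?_) <;> have := hmax β hβ <;> omega
      rcases hlt with h | h <;> simp [Nat.descFactorial_eq_zero_iff_lt.2 h]
    · intro h; exact absurd hγ h
  rw [hf, map_zero] at h1
  have h2 := (smul_eq_zero.1 h1.symm).resolve_left (by
    simp [Nat.descFactorial_self, Nat.factorial_ne_zero])
  exact Finsupp.mem_support_iff.1 hγ (mlt_injective (h2.trans (map_zero mlt).symm))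

/-- Normal forms are unique. -/
theorem nrm_injective : Function.Injective nrm := by
  refine forms_injective nrm (fun γ β p => ?_) fun p => by simp [nrm_single, dp_zero]
  rw [nrm_single, nrm_single, low, Module.End.mul_apply, pow_ad_mlt_mul, pow_ad_mlt_mul,
    ← Module.End.mul_apply, ← low, low_dp, mul_smul_comm]

/-- Antinormal forms are unique. -/
theorem ant_injective : Function.Injective ant := by
  refine forms_injective ant (fun γ β p => ?_) fun p => by simp [ant_single, dp_zero]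
  rw [ant_single, ant_single, low, Module.End.mul_apply, pow_ad_mul_mlt, pow_ad_mul_mlt,
    ← Module.End.mul_apply, ← low, low_dp, smul_mul_assoc]

/-- Coefficient families of order at most `j` and weight `b`. -/
noncomputable def Sym (j b : ℤ) : Submodule ℚ (ℕ × ℕ →₀ Pol) where
  carrier := {f | ∀ β, f β ∈ H (sz β + b) ∧ (j < sz β → f β = 0)}
  zero_mem' β := ⟨zero_mem _, fun _ => rfl⟩
  add_mem' {f g} hf hg β := ⟨add_mem (hf β).1 (hg β).1, fun h => by
    rw [Finsupp.add_apply, (hf β).2 h, (hg β).2 h, add_zero]⟩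
  smul_mem' a f hf β := ⟨Submodule.smul_mem _ a (hf β).1, fun h => by
    rw [Finsupp.smul_apply, (hf β).2 h, smul_zero]⟩

theorem single_mem_Sym {j b : ℤ} {β : ℕ × ℕ} {p : Pol} (hj : sz β ≤ j)
    (hp : p ∈ H (sz β + b)) : Finsupp.single β p ∈ Sym j b := by
  intro γ
  by_cases h : γ = β
  · subst h
    simp [hp, not_lt.2 hj]
  · simp [Ne.symm h]

theorem map_nrm_Sym (j b : ℤ) : (Sym j b).map nrm = Ord j b := by
  refine le_antisymm ?_ ?_
  · rintro _ ⟨f, hf, rfl⟩
    rw [← f.sum_single, Finsupp.sum, map_sum]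
    refine Submodule.sum_mem _ fun β hβ => ?_
    rw [nrm_single]
    refine mem_Ord_gen (not_lt.1 fun h => Finsupp.mem_support_iff.1 hβ ((hf β).2 h)) (hf β).1
  · rw [Ord, Submodule.span_le]
    rintro _ ⟨β, p, hj, hp, rfl⟩
    exact ⟨_, single_mem_Sym hj hp, nrm_single β p⟩

theorem map_ant_Sym (j b : ℤ) : (Sym j b).map ant = Ord j b := by
  refine le_antisymm ?_ ?_
  · rintro _ ⟨f, hf, rfl⟩
    rw [← f.sum_single, Finsupp.sum, map_sum]
    refine Submodule.sum_mem _ fun β hβ => ?_
    rw [ant_single]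
    refine anti_mem_Ord (not_lt.1 fun h => Finsupp.mem_support_iff.1 hβ ((hf β).2 h)) (hf β).1
  · rw [Ord_eq_OrdA, OrdA, Submodule.span_le]
    rintro _ ⟨β, p, hj, hp, rfl⟩
    exact ⟨_, single_mem_Sym hj hp, ant_single β p⟩

/-- Operators of order zero and weight zero are scalars. -/
theorem Ord_zero_zero {x : D} (hx : x ∈ Ord 0 0) : ∃ a : ℚ, x = algebraMap ℚ D a := by
  induction hx using Submodule.span_induction with
  | mem x hx =>
    obtain ⟨β, p, hj, hp, rfl⟩ := hx
    obtain rfl : β = (0, 0) := by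
      simp only [sz] at hj
      ext <;> simp <;> omega
    obtain ⟨a, rfl⟩ : ∃ a : ℚ, p = C a := by
      refine ⟨coeff 0 p, MvPolynomial.ext _ _ fun e => ?_⟩
      rw [coeff_C]
      split_ifs with h
      · subst h; rfl
      · by_contra hc
        have he : e ∈ degSet 0 := by
          simpa [sz] using (mem_restrictSupport_iff (R := ℚ)).1 hp (mem_support_iff.2 hc)
        simp only [degSet, Set.mem_ofPred_eq] at he
        refine h (Finsupp.ext fun i => ?_)
        fin_cases i <;> simp <;> omega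
    exact ⟨a, by rw [dp_zero, mul_one, ← algebraMap_eq, AlgHom.commutes]⟩
  | zero => exact ⟨0, by simp⟩
  | add x y _ _ hx hy =>
    obtain ⟨a, rfl⟩ := hx
    obtain ⟨b, rfl⟩ := hy
    exact ⟨a + b, by rw [map_add]⟩
  | smul c x _ hx =>
    obtain ⟨a, rfl⟩ := hx
    exact ⟨c * a, by rw [map_mul, Algebra.smul_def]⟩

end Vale.Agent.P195.Model
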